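import Vale.Agent.P088.R2.H768.A.WD
import Vale.Agent.P088.R2.H747.A.Rows

/-!
# P088, stage 3, zone A: row A-WD
-/

open Set Filter
open scoped ContDiff Topology Matrix

noncomputable section

namespace Vale.Agent.P088.R2.H768.A

open Vale.Agent.P088.LR Vale.Agent.P088.HY Vale.Agent.P088.R2.H961.GW Vale.Agent.P088.R2.H31.EP

variable {n : ℕ}

theorem Sl2_eq (q : Cst) : Sl2 q = H747.A.lS₂ q := by
  funext r
  unfold Sl2 H747.A.lS₂
  ring

/-- The open set of zone A. -/
theorem isOpen_OmB {q : Cst} {d : Pk n} (ok : PkOk q d) (c : Cn n q) :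
    IsOpen (H747.A.OmB q d) := by
  have hR : 0 < q.R := one_pos.trans_le c.R1
  have r2c : Continuous d.r2 := (sm_r2 ok hR c.ε1 c.ε2).continuous
  have uc : Continuous (d.u q) := (sm_u ok hR c.ε1 c.ε2).continuous
  have lc : Continuous d.l := ok.lev.sm.continuous
  have sΦ : ContDiff ℝ ∞ d.Φ := ok.ok.Φs
  have sΦ1 : Continuous (deriv d.Φ) := (contDiff_infty_iff_deriv.1 sΦ).2.continuous
  have sqc : Continuous fun z : VV n => HY.sq (z.1 - z.2) := by
    unfold HY.sq
    fun_prop
  have l1 : Continuous fun z : VV n => d.l z.1 := lc.comp continuous_fst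
  have l2 : Continuous fun z : VV n => d.l z.2 := lc.comp continuous_snd
  have Nc : Continuous (d.N q) := sΦ1.comp uc
  have Ec : Continuous fun z => 4 * q.nm * d.E q z := continuous_const.mul uc.rexp
  unfold H747.A.OmB
  refine (isOpen_lt continuous_const r2c).inter ((isOpen_lt sqc continuous_const).inter
    ((isOpen_lt l1 continuous_const).inter ((isOpen_lt l2 continuous_const).inter
    ((isOpen_lt continuous_const (l1.add l2)).inter ((isOpen_lt uc continuous_const).inter
    ((isOpen_lt uc continuous_const).union (isOpen_lt Nc Ec)))))))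

/-- **Row A-WD.** -/
theorem rowWd (n : ℕ) : H747.A.RowWd n := by
  refine (ev_cn n).mono fun q c d ok => ?_
  have hR : 0 < q.R := one_pos.trans_le c.R1
  have hr : ∀ z ∈ H747.A.OmB q d, 0 < d.r2 z := fun z hz =>
    lt_of_le_of_lt (sq_nonneg _) hz.1
  refine ⟨isOpen_OmB ok c, ?_, fun z hz => ?_⟩
  · have h := wd ok c.e0 hR c.ε1 c.ε2 hr
    rw [Sl2_eq] at h
    exact h
  · have hz3 := hz.2.2.1
    have hz4 := hz.2.2.2.1
    exact W_eq ok (hr z hz) hR.le (by linarith) (by linarith)

end Vale.Agent.P088.R2.H768.A
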