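import Vale.Agent.P088.R2.H768.W.FarJ
import Vale.Agent.P088.R2.H657.W.Fam
import Vale.Agent.P088.R2.H230.W.CvH
import Vale.Agent.P088.R2.H747.N.Cn2
import Vale.Agent.P088.R2.H31.EP.CstL

/-!
# P088, stage 3, zone A: the literal weight in the form `wt` of the certificates

`d.W q = Φ(u) + Ψ(u + log S(r²), r)` off the diagonal below the retraction; the data `Wd`; the
numbers of the certificates near (`r ≤ 20`) and far (`r ≥ 15`).
-/

open Set Filter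
open scoped ContDiff Topology Matrix

noncomputable section

namespace Vale.Agent.P088.R2.H768.A

open Vale.Agent.P088.LR Vale.Agent.P088.HY Vale.Agent.P088.R2.H464.Cu
open Vale.Agent.P088.R2.H961.GW Vale.Agent.P088.R2.H644.Ch Vale.Agent.P088.R2.H230.W
open Vale.Agent.P088.R2.H31.EP Vale.Agent.P088.R2.H768.FarJ
open Vale.Agent.P088.R2.H768.W (IsSlow)

/-! ## The functions -/

/-- `log S(r²)`, `L = S'/S`, `L'`. -/
def Sl0 (q : Cst) (r : ℝ) : ℝ := Real.log (prS q.e₁ (r ^ 2))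
def Sl1 (q : Cst) : ℝ → ℝ := prL q.e₁
def Sl2 (q : Cst) (r : ℝ) : ℝ := -(prE q.e₁ r) * prL q.e₁ r / r

/-- `∂_f^i ∂_r^j Ψ`, curried. -/
def Dc (q : Cst) (i j : ℕ) (f s : ℝ) : ℝ := q.D i j (f, s)

section prof

variable {q : Cst} (he : 0 < q.e₁)
include he

theorem hasDerivAt_Sl0 {r : ℝ} (hr : 0 < r) : HasDerivAt (Sl0 q) (Sl1 q r) r := by
  obtain ⟨R₁, h⟩ := (pp he).isProf
  have h1 : HasDerivAt (fun r => prS q.e₁ (r ^ 2)) (prL q.e₁ r * prS q.e₁ (r ^ 2)) r := h.dS r hr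
  have h2 : prS q.e₁ (r ^ 2) ≠ 0 := (h.pos _ (by positivity)).ne'
  refine (h1.log h2).congr_deriv ?_
  unfold Sl1
  field_simp

theorem hasDerivAt_Sl1 {r : ℝ} (hr : 0 < r) : HasDerivAt (Sl1 q) (Sl2 q r) r := by
  obtain ⟨R₁, h⟩ := (pp he).isProf
  exact h.dL r hr

theorem sm_Sl0 : ContDiffOn ℝ ∞ (Sl0 q) (Ioi 0) := by
  obtain ⟨R₁, h⟩ := (pp he).isProf
  refine ContDiffOn.log ?_ fun r hr => (h.pos _ (pow_pos (mem_Ioi.1 hr) 2)).ne'
  exact (h.sm.comp (contDiff_id.pow 2)).contDiffOn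

theorem sm_Sl1 : ContDiffOn ℝ ∞ (Sl1 q) (Ioi 0) := by
  obtain ⟨R₁, h⟩ := (pp he).isProf
  exact h.smL

theorem Sl1_ge (r : ℝ) : 4 / 5 ≤ Sl1 q r := by
  obtain ⟨R₁, h⟩ := (pp he).isProf
  exact h.Li_le r

theorem Sl1_pos (r : ℝ) : 0 < Sl1 q r := lt_of_lt_of_le (by norm_num) (Sl1_ge he r)

theorem Sl1_le {r : ℝ} (hr : 0 < r) : Sl1 q r ≤ H644.Lz 2 r := by
  obtain ⟨R₁, h⟩ := (pp he).isProf
  exact h.L_le r hr

theorem Sl1_anti : AntitoneOn (Sl1 q) (Ioi 0) := by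
  obtain ⟨R₁, h⟩ := (pp he).isProf
  exact h.anti

/-- `-r L' = e L`. -/
theorem Sl2_nonpos {r : ℝ} (hr : 0 < r) : Sl2 q r ≤ 0 := by
  obtain ⟨R₁, h⟩ := (pp he).isProf
  have h1 : 0 ≤ prE q.e₁ r := h.e_nonneg r hr
  have h2 : 0 < prL q.e₁ r := Sl1_pos he r
  unfold Sl2
  rw [neg_mul, neg_div]
  have : 0 ≤ prE q.e₁ r * prL q.e₁ r / r := by positivity
  linarith

theorem Sl2_abs {r : ℝ} (hr : 0 < r) :
    |Sl2 q r| * r ≤ (H644.ez 2 r + q.e₁) * H644.Lz 2 r := by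
  obtain ⟨R₁, h⟩ := (pp he).isProf
  have h1 : 0 ≤ prE q.e₁ r := h.e_nonneg r hr
  have h2 : 0 < prL q.e₁ r := Sl1_pos he r
  have h3 : prE q.e₁ r ≤ H644.ez 2 r + q.e₁ := h.e_le r hr
  rw [abs_of_nonpos (Sl2_nonpos he hr)]
  have e : -Sl2 q r * r = prE q.e₁ r * prL q.e₁ r := by
    unfold Sl2
    field_simp
  rw [e]
  exact mul_le_mul h3 (Sl1_le he hr) h2.le (h1.trans h3)

/-- Exact values for `r ≤ 20`. -/
theorem Sl1_near {r : ℝ} (hr : 0 < r) (h20 : r ≤ 20) : Sl1 q r = H644.Lz 2 r := by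
  obtain ⟨R₁, h⟩ := (pp he).isProf
  exact h.L_near r hr (by unfold rp; exact h20)

theorem Sl2_near {r : ℝ} (hr : 0 < r) (h20 : r ≤ 20) :
    Sl2 q r = -(H644.ez 2 r) * H644.Lz 2 r / r := by
  obtain ⟨R₁, h⟩ := (pp he).isProf
  have h1 : prE q.e₁ r = H644.ez 2 r := h.e_near r hr (by unfold rp; exact h20)
  have h2 : prL q.e₁ r = H644.Lz 2 r := Sl1_near he hr h20
  unfold Sl2
  rw [h1, h2]

end prof

/-! ### The exact profile -/

theorem Lz_eq {θ r : ℝ} (hθ : 0 < θ) (hr : 0 < r) :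
    H644.Lz θ r = 2 * H942.Iso.Near.Lp θ r := by
  have hs : 0 < Real.sinh (θ * r / 2) := Real.sinh_pos_iff.2 (by positivity)
  have e1 : Real.sinh (θ * r) = 2 * Real.sinh (θ * r / 2) * Real.cosh (θ * r / 2) := by
    rw [← Real.sinh_two_mul]; congr 1; ring
  have e2 : Real.cosh (θ * r) - 1 = 2 * Real.sinh (θ * r / 2) ^ 2 := by
    have := Real.cosh_two_mul (θ * r / 2)
    have h2 := Real.cosh_sq (θ * r / 2)
    have e3 : 2 * (θ * r / 2) = θ * r := by ring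
    rw [e3] at this
    rw [this, h2]; ring
  unfold H644.Lz H942.Iso.Near.Lp H942.Iso.Near.kp H942.Iso.Near.gp
  rw [e1, e2]
  field_simp

theorem ez_Lz {θ r : ℝ} (hθ : 0 < θ) (hr : 0 < r) :
    H644.ez θ r * H644.Lz θ r / r = 1 / H942.Iso.Near.gp θ r := by
  have hs : 0 < Real.sinh (θ * r / 2) := Real.sinh_pos_iff.2 (by positivity)
  have hc : 0 < Real.cosh (θ * r / 2) := Real.cosh_pos _
  have e1 : Real.sinh (θ * r) = 2 * Real.sinh (θ * r / 2) * Real.cosh (θ * r / 2) := by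
    rw [← Real.sinh_two_mul]; congr 1; ring
  have e2 : Real.cosh (θ * r) - 1 = 2 * Real.sinh (θ * r / 2) ^ 2 := by
    have := Real.cosh_two_mul (θ * r / 2)
    have h2 := Real.cosh_sq (θ * r / 2)
    have e3 : 2 * (θ * r / 2) = θ * r := by ring
    rw [e3] at this
    rw [this, h2]; ring
  unfold H644.Lz H644.ez H942.Iso.Near.gp
  rw [e1, e2]
  field_simp

/-! ## The weight -/

section wt

variable {n : ℕ} {q : Cst} {d : Pk n} {U : Set (VV n)}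

/-- The metric is smooth. -/
theorem sm_gi (ok : PkOk q d) (hR : 0 < q.R) (h1 : q.ε ≤ 1) (h2 : n * q.ε ≤ 1 / 2)
    (i j : Fin n) : ContDiff ℝ ∞ (fun x => gi d.s₁ x i j) :=
  ((H657.W.Rg.t1 ok.rg).inv hR h1 h2).sm i j

/-- `r²` is smooth. -/
theorem sm_r2 (ok : PkOk q d) (hR : 0 < q.R) (h1 : q.ε ≤ 1) (h2 : n * q.ε ≤ 1 / 2) :
    ContDiff ℝ ∞ d.r2 := by
  have hd : ∀ i, ContDiff ℝ ∞ (fun z : VV n => H464.Cu.dif z i) := fun i => by
    unfold H464.Cu.dif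
    exact ((contDiff_apply ℝ ℝ i).comp contDiff_fst).sub
      ((contDiff_apply ℝ ℝ i).comp contDiff_snd)
  exact contDiff_const.mul (contDiff_const.mul (ContDiff.sum fun i _ => ContDiff.sum fun j _ =>
    (((sm_gi ok hR h1 h2 i j).comp contDiff_mid).mul (hd i)).mul (hd j)))

/-- `u` is smooth. -/
theorem sm_u (ok : PkOk q d) (hR : 0 < q.R) (h1 : q.ε ≤ 1) (h2 : n * q.ε ≤ 1 / 2) :
    ContDiff ℝ ∞ (d.u q) := by
  have a1 : ContDiff ℝ ∞ fun z : VV n => d.l z.1 := ok.lev.sm.comp contDiff_fst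
  have a2 : ContDiff ℝ ∞ fun z : VV n => d.l z.2 := ok.lev.sm.comp contDiff_snd
  have a3 : ContDiff ℝ ∞ fun z : VV n =>
      2 * ((d.F q).χ (d.r2 z) * (d.F q).μ (d.l (H464.Cu.mid z))) :=
    contDiff_const.mul ((ok.ok.χs.comp (sm_r2 ok hR h1 h2)).mul
      (ok.ok.μs.comp (ok.lev.sm.comp contDiff_mid)))
  exact (a1.add a2).add a3

/-- **The weight off the diagonal.** -/
theorem W_eq (ok : PkOk q d) {z : VV n} (hr : 0 < d.r2 z) (hR : 0 ≤ q.R)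
    (hx : d.l z.1 ≤ d.l₀ q + 26 / 10 * q.R) (hy : d.l z.2 ≤ d.l₀ q + 26 / 10 * q.R) :
    d.W q z = wt d.Φ (Sl0 q) (Dc q) (d.u q) (jr d) z := by
  have p1 : d.P z.1 = z.1 := ok.ret.id z.1 (by linarith)
  have p2 : d.P z.2 = z.2 := ok.ret.id z.2 (by linarith)
  have t1 := ok.Θ0 _ hx
  have t2 := ok.Θ0 _ hy
  have h1 : d.W q z = WW (d.F q) d.l (gi d.s₁) z := by
    unfold Pk.W WT
    rw [p1, p2, t1, t2]
    simp
  have h2 : WW (d.F q) d.l (gi d.s₁) z =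
      d.Φ (d.u q z) + st (d.F q) (d.u q z) (d.r2 z) := by
    unfold WW Pk.u Pk.r2
    simp [Pk.F]
  have h3 : st (d.F q) (d.u q z) (d.r2 z) =
      q.D 0 0 (d.u q z + Real.log (prS q.e₁ (d.r2 z)), √(d.r2 z)) :=
    st_out ok.ok hr
  have h4 : jr d z ^ 2 = d.r2 z := Real.sq_sqrt hr.le
  rw [h1, h2, h3]
  unfold Vale.Agent.P088.R2.H230.W.wt Dc Sl0
  rw [h4]
  rfl

/-- `r` is smooth off the diagonal. -/
theorem sm_jr (ok : PkOk q d) (hR : 0 < q.R) (h1 : q.ε ≤ 1) (h2 : n * q.ε ≤ 1 / 2)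
    (hr : ∀ z ∈ U, 0 < d.r2 z) : Sm U (jr d) :=
  (sm_r2 ok hR h1 h2).contDiffOn.sqrt fun z hz => (hr z hz).ne'

theorem jr_pos (hr : ∀ z ∈ U, 0 < d.r2 z) {z : VV n} (hz : z ∈ U) : 0 < jr d z :=
  Real.sqrt_pos.2 (hr z hz)

/-- **The data `Wd`.** -/
theorem wd (ok : PkOk q d) (he : 0 < q.e₁) (hR : 0 < q.R) (h1 : q.ε ≤ 1)
    (h2 : n * q.ε ≤ 1 / 2) (hr : ∀ z ∈ U, 0 < d.r2 z) :
    Wd U d.Φ (deriv d.Φ) (deriv (deriv d.Φ)) (Sl0 q) (Sl1 q) (Sl2 q) (Dc q) (d.u q) (jr d) := by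
  have su : Sm U (d.u q) := (sm_u ok hR h1 h2).contDiffOn
  have sr : Sm U (jr d) := sm_jr ok hR h1 h2 hr
  have hr0 : ∀ z ∈ U, 0 < jr d z := fun z hz => jr_pos hr hz
  have sΦ : ContDiff ℝ ∞ d.Φ := ok.ok.Φs
  have sΦ1 : ContDiff ℝ ∞ (deriv d.Φ) := (contDiff_infty_iff_deriv.1 sΦ).2
  have sS : Sm U fun z => Sl0 q (jr d z) := (sm_Sl0 he).comp sr fun z hz => hr0 z hz
  have sf : Sm U fun z => d.u q z + Sl0 q (jr d z) := su.add sS
  have sD : ∀ i j, Sm U fun z => Dc q i j (d.u q z + Sl0 q (jr d z)) (jr d z) := fun i j =>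
    (ok.sl.sm i j).comp (sf.prodMk sr) fun z hz => hr0 z hz
  refine ⟨Cp.of su sΦ sΦ1 (fun t => (sΦ.differentiable (by norm_num) t).hasDerivAt)
    (fun t => (sΦ1.differentiable (by norm_num) t).hasDerivAt), ?_, ?_⟩
  · exact ⟨sr, sS, (sm_Sl1 he).comp sr fun z hz => hr0 z hz,
      fun z hz => hasDerivAt_Sl0 he (hr0 z hz), fun z hz => hasDerivAt_Sl1 he (hr0 z hz)⟩
  · exact ⟨sf, sr, sD 0 0, sD 1 0, sD 0 1, fun i j _ z hz => ok.sl.hd i j _ (hr0 z hz)⟩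

/-- The weight agrees with `wt` on open sets below the retraction. -/
theorem W_eqOn (ok : PkOk q d) (hR : 0 ≤ q.R) (hr : ∀ z ∈ U, 0 < d.r2 z)
    (hl : ∀ z ∈ U, d.l z.1 ≤ d.l₀ q + 26 / 10 * q.R ∧ d.l z.2 ≤ d.l₀ q + 26 / 10 * q.R) :
    ∀ z ∈ U, d.W q z = wt d.Φ (Sl0 q) (Dc q) (d.u q) (jr d) z :=
  fun z hz => W_eq ok (hr z hz) hR (hl z hz).1 (hl z hz).2

end wt

/-! ## Numbers -/

section num

variable {n : ℕ} {q : Cst} {d : Pk n} {f r : ℝ}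

theorem G_pos (ok : PkOk q d) (hr : 0 < r) : 0 < Dc q 1 0 f r := ok.sl.G_pos _ hr

theorem g_pos (ok : PkOk q d) (hr : 0 < r) : 0 < Dc q 2 0 f r := ok.sl.g_pos _ hr

/-- The exact values for `r < r₁ / e`. -/
theorem near_D (ok : PkOk q d) (hr : 0 < r) (h : r < q.r₁ * Real.exp (-1)) :
    Dc q 1 0 f r = Real.exp f ∧ Dc q 2 0 f r = Real.exp f ∧ Dc q 0 1 f r = 0 ∧
      Dc q 1 1 f r = 0 ∧ Dc q 0 2 f r = 0 := by
  have h1 := fun i j => ok.sl.inn i j (f, r) hr h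
  refine ⟨?_, ?_, ?_, ?_, ?_⟩
  · simpa [Dc] using h1 1 0
  · simpa [Dc] using h1 2 0
  · simpa [Dc] using h1 0 1
  · simpa [Dc] using h1 1 1
  · simpa [Dc] using h1 0 2

/-- The exact profile for `r ≤ 20`. -/
theorem near_L (he : 0 < q.e₁) (hr : 0 < r) (h20 : r ≤ 20) :
    Sl1 q r = 2 * H942.Iso.Near.Lp 2 r ∧ -Sl2 q r = 1 / H942.Iso.Near.gp 2 r := by
  refine ⟨(Sl1_near he hr h20).trans (Lz_eq two_pos hr), ?_⟩
  rw [Sl2_near he hr h20, ← ez_Lz two_pos hr]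
  ring

theorem Lz_pos {r : ℝ} (hr : 0 < r) : 0 < H644.Lz 2 r := by
  have h1 : 0 < Real.sinh (2 * r / 2) := Real.sinh_pos_iff.2 (by positivity)
  have h2 : 0 < Real.cosh (2 * r / 2) := Real.cosh_pos _
  unfold H644.Lz
  positivity

/-- `L`, `L'` are bounded for `r ≥ c₀`, uniformly in `e₁ ≤ 1`. -/
theorem Sl_bd {c₀ : ℝ} (hc : 0 < c₀) : ∃ CL : ℝ, 0 < CL ∧ ∀ q : Cst, 0 < q.e₁ → q.e₁ ≤ 1 →
    ∀ r, c₀ ≤ r → Sl1 q r ≤ CL ∧ |Sl2 q r| ≤ CL := by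
  have h0 := Lz_pos hc
  refine ⟨H644.Lz 2 c₀ + 2 * H644.Lz 2 c₀ / c₀, by positivity, fun q he h1 r hr => ?_⟩
  have hr0 : 0 < r := hc.trans_le hr
  have a1 : Sl1 q r ≤ H644.Lz 2 c₀ :=
    (Sl1_anti he (mem_Ioi.2 hc) (mem_Ioi.2 hr0) hr).trans (Sl1_le he hc)
  have a2 : 0 ≤ 2 * H644.Lz 2 c₀ / c₀ := by positivity
  refine ⟨by linarith, ?_⟩
  obtain ⟨R₁, h⟩ := (pp he).isProf
  have b1 : 0 ≤ prE q.e₁ r := h.e_nonneg r hr0
  have b2 : prE q.e₁ r ≤ 2 := by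
    have e1 := h.e_le r hr0
    have e2 : H644.ez 2 r ≤ 1 := by
      unfold H644.ez
      rw [div_le_one (Real.sinh_pos_iff.2 (by positivity))]
      exact Real.self_le_sinh_iff.2 (by positivity)
    exact e1.trans (by linarith)
  have b3 : 0 < prL q.e₁ r := Sl1_pos he r
  have e : |Sl2 q r| = prE q.e₁ r * prL q.e₁ r / r := by
    rw [abs_of_nonpos (Sl2_nonpos he hr0)]
    unfold Sl2
    ring
  rw [e]
  have b4 : prE q.e₁ r * prL q.e₁ r ≤ 2 * H644.Lz 2 c₀ := mul_le_mul b2 a1 b3.le zero_le_two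
  have b5 : prE q.e₁ r * prL q.e₁ r / r ≤ 2 * H644.Lz 2 c₀ / c₀ :=
    div_le_div₀ (by positivity) b4 hc hr
  linarith

theorem exp27 : (10 : ℝ) ^ 11 ≤ Real.exp 27 := by
  have h1 : Real.exp 27 = Real.exp 1 ^ 27 := by rw [← Real.exp_nat_mul]; norm_num
  rw [h1]
  have h2 : (2.7182818283 : ℝ) ≤ Real.exp 1 := Real.exp_one_gt_d9.le
  refine le_trans ?_ (pow_le_pow_left₀ (by norm_num) h2 27)
  norm_num

/-- `e` of the exact profile is tiny for `r ≥ 15`. -/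
theorem ez_far {r : ℝ} (hr : 15 ≤ r) : H644.ez 2 r ≤ 1 / 10 ^ 9 := by
  have h0 : 0 < 2 * r := by linarith
  have hs : Real.exp (2 * r) / 4 ≤ Real.sinh (2 * r) := by
    rw [Real.sinh_eq]
    have h1 : Real.exp (-(2 * r)) ≤ 1 := Real.exp_le_one_iff.2 (by linarith)
    have h2 : 2 * r + 1 ≤ Real.exp (2 * r) := Real.add_one_le_exp _
    linarith
  have h3 : 2 * r ≤ 10 * Real.exp (2 * r / 10) := by
    have := Real.add_one_le_exp (2 * r / 10)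
    linarith
  have h4 : Real.exp (2 * r) = Real.exp (2 * r / 10) * Real.exp (9 * (2 * r) / 10) := by
    rw [← Real.exp_add]; congr 1; ring
  have h5 : Real.exp 27 ≤ Real.exp (9 * (2 * r) / 10) := Real.exp_le_exp.2 (by linarith)
  have h6 := exp27
  have hp := Real.exp_pos (2 * r / 10)
  unfold H644.ez
  rw [div_le_iff₀ (lt_of_lt_of_le (by positivity) hs)]
  have h7 : 10 * Real.exp (2 * r / 10) ≤ 1 / 10 ^ 9 * (Real.exp (2 * r) / 4) := by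
    rw [h4]
    have h8 : (40 : ℝ) * 10 ^ 9 ≤ Real.exp (9 * (2 * r) / 10) := by
      refine le_trans ?_ (h6.trans h5)
      norm_num
    have h9 := mul_le_mul_of_nonneg_left h8 hp.le
    have e : 1 / 10 ^ 9 * (Real.exp (2 * r / 10) * Real.exp (9 * (2 * r) / 10) / 4) =
        Real.exp (2 * r / 10) * Real.exp (9 * (2 * r) / 10) / (4 * 10 ^ 9) := by ring
    rw [e, le_div_iff₀ (by norm_num)]
    linarith
  exact h3.trans (h7.trans (mul_le_mul_of_nonneg_left hs (by norm_num)))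

theorem Lz_far {r : ℝ} (hr : 15 ≤ r) : H644.Lz 2 r ≤ 2001 / 1000 := by
  have h0 : 0 < r := by linarith
  have e2 : 2 * r / 2 = r := by ring
  have hs : 0 < Real.sinh r := Real.sinh_pos_iff.2 h0
  have h1 : r ≤ Real.sinh r := Real.self_le_sinh_iff.2 h0.le
  have h2 : Real.cosh r = Real.sinh r + Real.exp (-r) := by
    rw [Real.cosh_eq, Real.sinh_eq]; ring
  have h3 : Real.exp (-r) ≤ 1 / 2000 := by
    rw [Real.exp_neg, inv_le_comm₀ (Real.exp_pos _) (by norm_num)]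
    have h4 : Real.exp 15 ≤ Real.exp r := Real.exp_le_exp.2 hr
    have h5 : (2000 : ℝ) ≤ Real.exp 15 := by
      have h6 : Real.exp 15 = Real.exp 1 ^ 15 := by rw [← Real.exp_nat_mul]; norm_num
      rw [h6]
      have h7 : (2.7182818283 : ℝ) ≤ Real.exp 1 := Real.exp_one_gt_d9.le
      refine le_trans ?_ (pow_le_pow_left₀ (by norm_num) h7 15)
      norm_num
    rw [one_div, inv_inv]
    linarith
  unfold H644.Lz
  rw [e2, h2, div_le_iff₀ hs]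
  linarith

/-- **The numbers of the far certificate** (`κ = D₂₀/D₁₀`, `ω = D₁₁/D₂₀`). -/
theorem far_num (ok : PkOk q d) (he : 0 < q.e₁) (he' : q.e₁ ≤ 1 / 200000000) (hs0 : 0 ≤ q.es)
    (hs : q.es ≤ 1 / 4000000000) (hr1 : 2000 ≤ q.r₁) {a : ℝ} (ha : 24 / 25 ≤ a) (ha2 : a ≤ 2)
    (hr : 15 ≤ r) :
    0 < Dc q 1 0 f r ∧ 1 / 10 * a ≤ Sl1 q r ∧ Sl1 q r ≤ 21 / 10 * a ∧
      |Dc q 1 1 f r / Dc q 2 0 f r| ≤ 1 / 50 * a ∧
      |Dc q 0 1 f r| ≤ 1 / 50 * (a * Dc q 1 0 f r) ∧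
      6 ≤ Dc q 2 0 f r / Dc q 1 0 f r * r ∧
      Dc q 2 0 f r = Dc q 2 0 f r / Dc q 1 0 f r * Dc q 1 0 f r ∧
      |Dc q 1 1 f r - Dc q 2 0 f r / Dc q 1 0 f r * Dc q 1 0 f r *
        (Dc q 1 1 f r / Dc q 2 0 f r)| ≤ q.es * (Dc q 1 0 f r / r) ∧
      |Dc q 0 2 f r - Dc q 2 0 f r / Dc q 1 0 f r * Dc q 1 0 f r *
        (Dc q 1 1 f r / Dc q 2 0 f r) ^ 2| ≤ q.es * (Dc q 1 0 f r / r) ∧
      60000000 * (|Sl2 q r| * r) ≤ 1 := by
  have r0 : 0 < r := by linarith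
  have G0 : 0 < Dc q 1 0 f r := ok.sl.G_pos (f, r) r0
  have g0 : 0 < Dc q 2 0 f r := ok.sl.g_pos (f, r) r0
  have c1 : Dc q 2 0 f r / Dc q 1 0 f r * Dc q 1 0 f r = Dc q 2 0 f r := div_mul_cancel₀ _ G0.ne'
  have L1 := Sl1_ge he r
  have L2 := (Sl1_le he r0).trans (Lz_far hr)
  refine ⟨G0, by linarith, by linarith, ?_, ?_, ?_, c1.symm, ?_, ?_, ?_⟩
  · have h1 : |Dc q 1 1 f r| ≤ q.es * Dc q 2 0 f r := ok.sl.om (f, r) r0
    rw [abs_div, abs_of_pos g0, div_le_iff₀ g0]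
    refine h1.trans (mul_le_mul_of_nonneg_right ?_ g0.le)
    linarith
  · have h1 : |Dc q 0 1 f r| ≤ q.es * Dc q 1 0 f r := ok.sl.mu (f, r) r0
    refine h1.trans ?_
    rw [← mul_assoc]
    exact mul_le_mul_of_nonneg_right (by linarith) G0.le
  · have h1 : 1 / 4 * min 1 √(q.r₁ / r) * Dc q 1 0 f r ≤ Dc q 2 0 f r :=
      ok.sl.kap_ge (f, r) r0
    rcases lt_or_ge r (q.r₁ * Real.exp (-1)) with h | h
    · obtain ⟨e1, e2, -, -, -⟩ := near_D (f := f) ok r0 h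
      rw [e1, e2, div_self (Real.exp_pos _).ne', one_mul]
      linarith
    · have h2 : 1 / 4 * min 1 √(q.r₁ / r) ≤ Dc q 2 0 f r / Dc q 1 0 f r := by
        rw [le_div_iff₀ G0]; exact h1
      refine le_trans ?_ (mul_le_mul_of_nonneg_right h2 r0.le)
      have h3 : 1 / 3 ≤ Real.exp (-1) := by
        have := Real.exp_one_lt_d9
        rw [Real.exp_neg, one_div, inv_le_inv₀ (by norm_num) (Real.exp_pos _)]
        linarith
      have h4 : 600 ≤ r := by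
        have h5 : 2000 * (1 / 3) ≤ q.r₁ * Real.exp (-1) :=
          mul_le_mul hr1 h3 (by norm_num) (by linarith)
        linarith
      rcases le_total 1 √(q.r₁ / r) with h5 | h5
      · rw [min_eq_left h5]
        linarith
      · rw [min_eq_right h5]
        have h6 : 0 ≤ q.r₁ / r := by
          have : 0 ≤ q.r₁ := by linarith
          positivity
        have h7 : (24 : ℝ) ≤ √(q.r₁ / r) * r := by
          have h8 : √(q.r₁ / r) * r = √(q.r₁ / r * r ^ 2) := by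
            rw [Real.sqrt_mul h6, Real.sqrt_sq r0.le]
          rw [h8]
          refine Real.le_sqrt_of_sq_le ?_
          have h9 : q.r₁ / r * r ^ 2 = q.r₁ * r := by
            field_simp
          rw [h9]
          nlinarith
        linarith
  · rw [c1, mul_div_cancel₀ _ g0.ne', sub_self, abs_zero]
    positivity
  · have h1 : |Dc q 0 2 f r * Dc q 2 0 f r - Dc q 1 1 f r ^ 2| ≤
        q.es * (Dc q 1 0 f r * Dc q 2 0 f r / r) := ok.sl.s0 (f, r) r0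
    rw [c1]
    have e : Dc q 0 2 f r - Dc q 2 0 f r * (Dc q 1 1 f r / Dc q 2 0 f r) ^ 2 =
        (Dc q 0 2 f r * Dc q 2 0 f r - Dc q 1 1 f r ^ 2) / Dc q 2 0 f r := by
      field_simp
    rw [e, abs_div, abs_of_pos g0, div_le_iff₀ g0]
    refine h1.trans (le_of_eq ?_)
    ring
  · have h1 := Sl2_abs he r0
    have h2 := ez_far hr
    have h3 := Lz_far hr
    have h4 : (H644.ez 2 r + q.e₁) * H644.Lz 2 r ≤ (1 / 10 ^ 9 + 1 / 200000000) * (2001 / 1000) :=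
      mul_le_mul (by linarith) h3 (Lz_pos r0).le (by norm_num)
    have h5 : (1 / 10 ^ 9 + 1 / 200000000) * (2001 / 1000) ≤ (1 : ℝ) / 60000000 := by norm_num
    linarith

/-- The window of the slow exponential with any slope `M ≥ M₀`. -/
theorem g_sq (ok : PkOk q d) (hc : 0 ≤ q.c') (h0 : 0 ≤ q.M₀) {M : ℝ} (hM : q.M₀ ≤ M)
    (hr : 0 < r) :
    Dc q 2 0 f r ^ 2 ≤ q.c' * (Dc q 1 0 f r / r) * (M + Dc q 1 0 f r) ^ 2 := by
  have h1 : Dc q 2 0 f r ^ 2 * r ≤ q.c' * (Dc q 1 0 f r * (q.M₀ + Dc q 1 0 f r) ^ 2) :=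
    ok.sl.slow (f, r) hr
  have G0 : 0 < Dc q 1 0 f r := ok.sl.G_pos (f, r) hr
  have h2 : (q.M₀ + Dc q 1 0 f r) ^ 2 ≤ (M + Dc q 1 0 f r) ^ 2 :=
    pow_le_pow_left₀ (by linarith) (by linarith) 2
  have e : q.c' * (Dc q 1 0 f r / r) * (M + Dc q 1 0 f r) ^ 2 =
      q.c' * (Dc q 1 0 f r * (M + Dc q 1 0 f r) ^ 2) / r := by
    field_simp
  rw [e, le_div_iff₀ hr]
  exact h1.trans (mul_le_mul_of_nonneg_left (mul_le_mul_of_nonneg_left h2 G0.le) hc)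

/-- Log convexity. -/
theorem cv (ok : PkOk q d) (hr : 0 < r) :
    |Dc q 2 0 f r * ((Dc q 3 0 f r / Dc q 2 0 f r) ^ 2 - Dc q 4 0 f r / Dc q 2 0 f r)| ≤
      q.es * (q.M₀ / r) * Dc q 1 0 f r := by
  have h1 : |Dc q 4 0 f r * Dc q 2 0 f r - Dc q 3 0 f r ^ 2| ≤
      q.es * (q.M₀ / r) * (Dc q 1 0 f r * Dc q 2 0 f r) := ok.sl.conv (f, r) hr
  have g0 : 0 < Dc q 2 0 f r := ok.sl.g_pos (f, r) hr
  have e : Dc q 2 0 f r * ((Dc q 3 0 f r / Dc q 2 0 f r) ^ 2 - Dc q 4 0 f r / Dc q 2 0 f r) =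
      -(Dc q 4 0 f r * Dc q 2 0 f r - Dc q 3 0 f r ^ 2) / Dc q 2 0 f r := by
    field_simp
    ring
  rw [e, abs_div, abs_neg, abs_of_pos g0, div_le_iff₀ g0]
  refine h1.trans (le_of_eq ?_)
  ring

/-- All derivatives of `Ψ` of order at least one are `O(G)`, of order at least two `O(g)`. -/
theorem D_le (ok : PkOk q d) (hr : 0 < r) (i j : ℕ) (h : 1 ≤ i + j) :
    |Dc q i j f r| ≤ |slB i j| * Dc q 1 0 f r :=
  (ok.sl.bd1 i j (f, r) hr h).trans (mul_le_mul_of_nonneg_right (le_abs_self _)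
    (ok.sl.G_pos (f, r) hr).le)

theorem D2_le (ok : PkOk q d) (hr : 0 < r) (i j : ℕ) (h : 2 ≤ i + j) :
    |Dc q i j f r| ≤ |slB i j| * Dc q 2 0 f r :=
  (ok.sl.bd2 i j (f, r) hr h).trans (mul_le_mul_of_nonneg_right (le_abs_self _)
    (ok.sl.g_pos (f, r) hr).le)

theorem g_le_G (ok : PkOk q d) (hr : 0 < r) : Dc q 2 0 f r ≤ 6 / 5 * Dc q 1 0 f r :=
  ok.sl.kap_le (f, r) hr

end num

/-! ## Thresholds -/

/-- The conditions on the constants. -/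
structure Cn (n : ℕ) (q : Cst) : Prop where
  e0 : 0 < q.e₁
  e1 : q.e₁ ≤ 1 / 200000000
  s0 : 0 < q.es
  s1 : q.es ≤ 1 / 4000000000
  r1 : 2000 ≤ q.r₁
  c0 : 0 < q.c'
  c1 : q.c' ≤ 1
  M1 : 1 ≤ q.M₀
  R1 : 1 ≤ q.R
  ε0 : 0 < q.ε
  ε1 : q.ε ≤ 1
  ε2 : n * q.ε ≤ 1 / 2

/-- They hold eventually. -/
theorem ev_cn (n : ℕ) : EvC (Cn n) := by
  have a1 := EvC.at_e₁ (fun _ t => t ≤ 1 / 200000000) fun _ => sml_le (by norm_num)
  have a2 := EvC.at_es (fun _ t => t ≤ 1 / 4000000000) fun _ => sml_le (by norm_num)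
  have a3 := EvC.at_c' (fun _ t => t ≤ 1) fun _ => sml_le one_pos
  have a4 := EvC.at_M₀ (fun q t => 4000 / q.c' ≤ t) fun q => eventually_ge_atTop _
  have a5 := EvC.at_ε (fun _ t => t ≤ 1 / (2 * (n + 1))) fun _ => sml_le (by positivity)
  refine ((((a1.and a2).and a3).and a4).and a5 |>.and EvC.pos).mono fun q h => ?_
  obtain ⟨⟨⟨⟨⟨b1, b2⟩, b3⟩, b4⟩, b5⟩, ⟨-, p2, -⟩, ⟨-, -, p3, p4, -⟩, p5⟩ := h
  have b4' : 4000 / q.c' ≤ q.M₀ := b4
  have n0 : (0 : ℝ) < n + 1 := by positivity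
  have b6 : q.ε * (2 * (n + 1)) ≤ 1 := by rwa [le_div_iff₀ (by positivity)] at b5
  refine ⟨p2, b1, p4, b2, ?_, p3, b3, ?_, ?_, ?_, ?_, ?_⟩
  · rw [div_le_iff₀ p3] at b4'
    unfold Cst.r₁
    linarith
  · tauto
  · tauto
  · tauto
  · have e0 : 0 < q.ε := by tauto
    nlinarith [Nat.cast_nonneg (α := ℝ) n]
  · have e0 : 0 < q.ε := by tauto
    nlinarith [Nat.cast_nonneg (α := ℝ) n]

end Vale.Agent.P088.R2.H768.A
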