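import Vale.Agent.P088.R2.H768.A.FarW
import Vale.Agent.P088.R2.H657.A.Ft
import Vale.Agent.P088.R2.H281.EP.Prs

/-!
# P088, stage 3, zone A: the total inequality where the margin is large

`tot_cr`: if all derivatives of the weight are `O(N + G)` and `m ≥ M(C, η, c)` then the certificate
implies the total inequality. `rowTotR`: this is the case for `u ≥ uth - 1`, `r ≥ 16`, where
`N + G ≥ e^(c √R)`.
-/

open Set Filter
open scoped ContDiff Topology Matrix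

noncomputable section

namespace Vale.Agent.P088.R2.H768.A

open Vale.Agent.P088.LR Vale.Agent.P088.HY Vale.Agent.P088.R2.H464.Cu
open Vale.Agent.P088.R2.H961.GW Vale.Agent.P088.R2.H31.EP Vale.Agent.P088.R2.H644.Sy
open Vale.Agent.P088.R2.H644.Ep Vale.Agent.P088.R2.H644.Pf Vale.Agent.P088.R2.H657.W
open Vale.Agent.P088.R2.H960.W Vale.Agent.P088.R2.H768.FarJ
open Vale.Agent.P088.R2.H644.Ch (TH)

section pt

variable {E ι : Type*} [NormedAddCommGroup E] [NormedSpace ℝ E] [Fintype ι]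
  {σ τ : Sl E ι} {W m : E → ℝ} {c c' : ι → E → ℝ} {z : E}

/-- The arithmetic of the crude lemma. -/
theorem cr_arith {Q g μ ν cF η S X a b : ℝ} (hμ : 1 ≤ μ) (hν : 1 ≤ ν)
    (hS : S ^ 2 ≤ 2 * ν * a) (hX : X ^ 2 ≤ 2 * b) (ha : 0 ≤ a) (hb : 0 ≤ b)
    (hm : Q ^ 2 * ν + 3 * Q ≤ η * cF * μ) :
    Q * (g * S * X + 3 * g ^ 2 * b) ≤ 24 * (μ * a) + η * μ * (cF * g ^ 2) * b := by
  have hμ0 : 0 < μ := by linarith
  have hν0 : 0 < ν := by linarith
  -- `Q g S X ≤ μ S²/(2 ν) + ν Q² g² X²/(2 μ)`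
  have h1 : Q * (g * S * X) ≤ μ / (2 * ν) * S ^ 2 + ν / (2 * μ) * (Q * g * X) ^ 2 := by
    have h2 : 0 ≤ (μ * S - ν * (Q * g * X)) ^ 2 / (2 * μ * ν) := by positivity
    have e : (μ * S - ν * (Q * g * X)) ^ 2 / (2 * μ * ν) = μ / (2 * ν) * S ^ 2 +
        ν / (2 * μ) * (Q * g * X) ^ 2 - Q * (g * S * X) := by
      field_simp
      ring
    linarith
  have h3 : μ / (2 * ν) * S ^ 2 ≤ μ * a := by
    calc μ / (2 * ν) * S ^ 2 ≤ μ / (2 * ν) * (2 * ν * a) :=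
          mul_le_mul_of_nonneg_left hS (by positivity)
      _ = μ * a := by field_simp
  have h4 : ν / (2 * μ) * (Q * g * X) ^ 2 ≤ ν * Q ^ 2 * g ^ 2 * b := by
    have h5 : ν / (2 * μ) ≤ ν / 2 := div_le_div_of_nonneg_left hν0.le two_pos (by linarith)
    calc ν / (2 * μ) * (Q * g * X) ^ 2 ≤ ν / 2 * (Q * g * X) ^ 2 :=
          mul_le_mul_of_nonneg_right h5 (sq_nonneg _)
      _ = ν / 2 * (Q ^ 2 * g ^ 2) * X ^ 2 := by ring
      _ ≤ ν / 2 * (Q ^ 2 * g ^ 2) * (2 * b) := mul_le_mul_of_nonneg_left hX (by positivity)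
      _ = _ := by ring
  have h6 : (Q ^ 2 * ν + 3 * Q) * (g ^ 2 * b) ≤ η * cF * μ * (g ^ 2 * b) :=
    mul_le_mul_of_nonneg_right hm (by positivity)
  have h7 : 0 ≤ μ * a := by positivity
  nlinarith [h1, h3, h4, h6]

/-- **The crude lemma.** -/
theorem tot_cr {Q g ν cF η : ℝ} (hν : 1 ≤ ν) (hc : (Fintype.card ι : ℝ) ≤ ν)
    (hqf : ∀ (A B : ι → ℝ) (x y : ℝ), |H747.SW.qf σ τ 0 0 W z A B x y| ≤
      Q * (g * ((∑ i, |A i|) + ∑ i, |B i|) * (|x| + |y|) + 3 * g ^ 2 * (x ^ 2 + y ^ 2)))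
    (hF : cF * g ^ 2 ≤ σ.F W z) (hF' : cF * g ^ 2 ≤ τ.F W z)
    (hs : ∀ A : ι → ℝ, H747.SW.ss σ A z ≤ 2 * ∑ i, A i ^ 2)
    (ht : ∀ A : ι → ℝ, H747.SW.ss τ A z ≤ 2 * ∑ i, A i ^ 2)
    (hη : 0 ≤ η) (h1 : 1 ≤ m z) (hm : Q ^ 2 * ν + 3 * Q ≤ η * cF * m z)
    (cert : ∀ A B : ι → ℝ, 4 * (m z * ((∑ i, A i ^ 2) + ∑ i, B i ^ 2)) ≤
      TH σ τ W z A B + tc σ c W z A + tc τ c' W z B) :
    H747.A.Tot σ τ 0 0 W m c c' η z := by
  intro A B x y
  have hm0 : 0 ≤ m z := by linarith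
  set a : ℝ := (∑ i, A i ^ 2) + ∑ i, B i ^ 2 with ha
  have sA : 0 ≤ ∑ i, A i ^ 2 := Finset.sum_nonneg fun _ _ => sq_nonneg _
  have sB : 0 ≤ ∑ i, B i ^ 2 := Finset.sum_nonneg fun _ _ => sq_nonneg _
  have cs : ∀ A : ι → ℝ, (∑ i, |A i|) ^ 2 ≤ ν * ∑ i, A i ^ 2 := by
    intro A
    have h2 := sq_sum_le_card_mul_sum_sq (s := (Finset.univ : Finset ι)) (f := fun i => |A i|)
    simp only [sq_abs, Finset.card_univ] at h2
    exact h2.trans (mul_le_mul_of_nonneg_right hc (Finset.sum_nonneg fun _ _ => sq_nonneg _))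
  have hS : ((∑ i, |A i|) + ∑ i, |B i|) ^ 2 ≤ 2 * ν * a := by
    have h2 := cs A
    have h3 := cs B
    nlinarith [sq_nonneg ((∑ i, |A i|) - ∑ i, |B i|)]
  have hX : (|x| + |y|) ^ 2 ≤ 2 * (x ^ 2 + y ^ 2) := by
    nlinarith [sq_nonneg (|x| - |y|), sq_abs x, sq_abs y]
  have key := cr_arith (g := g) (cF := cF) (η := η) h1 hν hS hX (by positivity)
    (by positivity) hm
  have hq := (abs_le.1 (hqf A B x y)).1
  have hc1 := cert A B
  have p1 := mul_le_mul_of_nonneg_left (hs A) hm0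
  have p2 := mul_le_mul_of_nonneg_left (ht B) hm0
  have p3 : η * (m z * (cF * g ^ 2) * x ^ 2) ≤ η * (m z * σ.F W z * x ^ 2) :=
    mul_le_mul_of_nonneg_left (mul_le_mul_of_nonneg_right
      (mul_le_mul_of_nonneg_left hF hm0) (sq_nonneg x)) hη
  have p4 : η * (m z * (cF * g ^ 2) * y ^ 2) ≤ η * (m z * τ.F W z * y ^ 2) :=
    mul_le_mul_of_nonneg_left (mul_le_mul_of_nonneg_right
      (mul_le_mul_of_nonneg_left hF' hm0) (sq_nonneg y)) hη
  nlinarith [key, hq, hc1, p1, p2, p3, p4]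

end pt

variable {n k : ℕ} {q q₀ : Cst} {d : Pk n} {c : ℝ}

/-! ## The lower bound of `G` -/

theorem G_low (h : PkOk q d) (hs : Es q) {f r : ℝ} (hr : 0 < r) (hf : 0 ≤ f) :
    1 / 2 * Real.exp (1 / 2 * min 1 √(q.r₁ / r) * f) ≤ q.D 1 0 (f, r) := by
  obtain ⟨k, k1, -, k3⟩ := h.sl.u_form (f, r) hr
  have h1 := h.sl.G_u (f, r) hr
  rw [k3] at h1
  have h2 := (abs_le.1 h1).1
  have h3 : Real.exp (1 / 2 * min 1 √(q.r₁ / r) * f) ≤ Real.exp (k * f) :=
    Real.exp_le_exp.2 (mul_le_mul_of_nonneg_right k1 hf)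
  have h4 : 0 < Real.exp (k * f) := Real.exp_pos _
  have h5 := mul_le_mul_of_nonneg_right hs.s1 h4.le
  have e : (f, r).1 = f := rfl
  rw [e] at h2
  linarith

/-- The size of `G` on the reverse pass. -/
theorem G_rev (hg : Gc n q) (hes : Es q) (hκ0 : 0 ≤ q.κ₁) (hκ : q.κ₁ ≤ 1 / 2)
    (hr1 : q.r₁ ≤ q.R) (h : PkOk q d) {z : VV n} (hz : z ∈ H747.A.OmB q d)
    (h2 : 16 ≤ H747.A.rr d z) (hu : d.uth q - 1 ≤ d.u q z) :
    1 / 2 * Real.exp √(q.r₁ * q.R) ≤ H747.A.GG q d z := by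
  have hR := hg.RR
  have hR0 : 0 < q.R := by linarith
  have hrr : 0 < H747.A.rr d z := by linarith
  have hM := M_pos hg
  have hr1p : 0 < q.r₁ := by
    have := hes.c0
    unfold Cst.r₁
    positivity
  -- `r ≤ R`
  have hz2 : z ∈ Ue q d := OmB_Ue hg hκ0 hκ h hz (by
    have h3 : (16 : ℝ) ^ 2 ≤ d.r2 z := (Real.le_sqrt' (by norm_num)).1 h2
    linarith)
  have hrR : H747.A.rr d z ≤ q.R := by
    have := Ue_r hg hz2
    rwa [one_mul] at this
  -- `f ≥ 2 R`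
  have hl0 := l0_nn hg h
  have hS : (1 : ℝ) / 2 ≤ prS q.e₁ (H747.A.rr d z ^ 2) := by
    have h3 := H281.EP.prS_ge1 hg.e0 zero_le_one (le_refl (1 : ℝ))
    have h4 : (1 : ℝ) ≤ H747.A.rr d z ^ 2 := by nlinarith
    exact h3.trans (prS_mono hg.e0 (show (1 : ℝ) ∈ Ici (0 : ℝ) by norm_num)
      (mem_Ici.2 (sq_nonneg _)) h4)
  have hlog : -1 ≤ H747.A.lS q (H747.A.rr d z) := by
    unfold H747.A.lS
    rw [Real.le_log_iff_exp_le (by linarith)]
    refine le_trans ?_ hS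
    rw [Real.exp_neg, inv_le_comm₀ (Real.exp_pos 1) (by norm_num)]
    have := Real.add_one_le_exp (1 : ℝ)
    linarith
  have hf : 2 * q.R ≤ H747.A.ff q d z := by
    unfold H747.A.ff
    unfold Pk.uth at hu
    linarith
  have h3 := G_low h hes hrr (by linarith : 0 ≤ H747.A.ff q d z)
  refine le_trans (mul_le_mul_of_nonneg_left (Real.exp_le_exp.2 ?_) (by norm_num)) h3
  have h4 : √(q.r₁ / q.R) ≤ min 1 √(q.r₁ / H747.A.rr d z) := by
    refine le_min ?_ (Real.sqrt_le_sqrt (div_le_div_of_nonneg_left hr1p.le hrr hrR))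
    rw [Real.sqrt_le_one]
    rwa [div_le_one hR0]
  have h5 : √(q.r₁ / q.R) * q.R = √(q.r₁ * q.R) := by
    have e1 : q.r₁ / q.R * q.R ^ 2 = q.r₁ * q.R := by field_simp
    rw [← e1, Real.sqrt_mul (by positivity), Real.sqrt_sq hR0.le]
  calc √(q.r₁ * q.R) = 1 / 2 * √(q.r₁ / q.R) * (2 * q.R) := by rw [← h5]; ring
    _ ≤ 1 / 2 * min 1 √(q.r₁ / H747.A.rr d z) * H747.A.ff q d z := by
        refine mul_le_mul ?_ hf (by positivity) (by positivity)
        linarith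

/-! ## The row -/

/-- `q(DW) ≥ 1/2 |DW|²` and `s ≤ 2`. -/
theorem F_low (hg : Gc n q) (h : PkOk q d) (z : VV n) :
    1 / 2 * H747.A.Wx2 q d z ≤ d.sx.F (d.W q) z ∧ 1 / 2 * H747.A.Wy2 q d z ≤ d.sy.F (d.W q) z := by
  constructor
  · have h1 := H657.A.bf_le hg.nε (fun i j => H657.A.TR.b0 (Rg.t1 h.rg) z.1 i j)
      fun i => d.sx.D i (d.W q) z
    have h2 := (abs_le.1 h1).1
    have e : d.sx.F (d.W q) z = ∑ i, ∑ j, d.s₁ z.1 i j * d.sx.D i (d.W q) z *
      d.sx.D j (d.W q) z := rfl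
    rw [e]
    unfold H747.A.Wx2
    linarith
  · have h1 := H657.A.bf_le hg.nε (fun i j => H657.A.TR.b0 (Rg.t2 h.rg) z.2 i j)
      fun i => d.sy.D i (d.W q) z
    have h2 := (abs_le.1 h1).1
    have e : d.sy.F (d.W q) z = ∑ i, ∑ j, d.s₂ z.2 i j * d.sy.D i (d.W q) z *
      d.sy.D j (d.W q) z := rfl
    rw [e]
    unfold H747.A.Wy2
    linarith

/-- The growth of the threshold. -/
theorem thr_ev {σ a T : ℝ} (hσ : 0 < σ) (ha : 0 < a) :
    ∀ᶠ t : ℝ in atTop, T ≤ σ / (800 * t) * Real.exp √(a * t) := by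
  filter_upwards [eventually_ge_atTop (max 1 (|T| * 19200 / (σ * a ^ 2)))] with t ht
  have t1 : 1 ≤ t := (le_max_left _ _).trans ht
  have t2 := (le_max_right _ _).trans ht
  have t0 : 0 < t := by linarith
  rw [div_le_iff₀ (by positivity)] at t2
  have h1 := Real.pow_div_factorial_le_exp √(a * t) (Real.sqrt_nonneg _) 4
  have h2 : √(a * t) ^ 4 = (a * t) ^ 2 := by
    have : √(a * t) ^ 4 = (√(a * t) ^ 2) ^ 2 := by ring
    rw [this, Real.sq_sqrt (by positivity)]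
  rw [h2] at h1
  have h3 : σ / (800 * t) * ((a * t) ^ 2 / (Nat.factorial 4 : ℝ)) ≤
      σ / (800 * t) * Real.exp √(a * t) := mul_le_mul_of_nonneg_left h1 (by positivity)
  refine le_trans ?_ h3
  have e : σ / (800 * t) * ((a * t) ^ 2 / (Nat.factorial 4 : ℝ)) = σ * a ^ 2 * t / 19200 := by
    have : (Nat.factorial 4 : ℝ) = 24 := by norm_num [Nat.factorial]
    rw [this]
    field_simp
    ring
  rw [e, le_div_iff₀ (by norm_num)]
  have := le_abs_self T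
  nlinarith

/-- The quantum part is crude. -/
theorem qf_cr (hg : Gc n q) (h : PkOk q d) {C : ℝ} {U : Set (VV n)} (hU : IsOpen U)
    (hW : Sm U (d.W q)) {z : VV n} (hz : z ∈ U)
    (b : B0 d.sx d.sy (d.W q) z C (H747.A.NG q d z) (H747.A.NG q d z) (q.R)⁻¹)
    (g1 : 1 ≤ H747.A.NG q d z) (A B : Fin n → ℝ) (x y : ℝ) :
    |H747.SW.qf d.sx d.sy 0 0 (d.W q) z A B x y| ≤ Cqf n n C *
      (H747.A.NG q d z * ((∑ i, |A i|) + ∑ i, |B i|) * (|x| + |y|) +
        3 * H747.A.NG q d z ^ 2 * (x ^ 2 + y ^ 2)) := by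
  have hz0 : ∀ (τ : Sl (VV n) (Fin n)) (i : Fin n), |τ.D i (0 : VV n → ℝ) z| ≤ C * 0 := by
    intro τ i
    have : τ.D i (0 : VV n → ℝ) z = 0 := by
      unfold Sl.D
      have e : (0 : VV n → ℝ) = fun _ => 0 := rfl
      rw [e, fderiv_const_apply]
      simp
    rw [this]
    simp
  have key := b.qf (ok_x h hU) (ok_y h hU) (fun _ => rfl) (fun _ => rfl) (Lx_x d.s₁ U)
    (Lx_y d.s₂ U) hW hz le_rfl (v₁ := 0) (v₂ := 0) (hz0 d.sx) (hz0 d.sy) A B x y
  have e : H747.S.qf d.sx d.sy 0 0 (d.W q) z A B x y =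
      H747.SW.qf d.sx d.sy 0 0 (d.W q) z A B x y := rfl
  rw [e] at key
  refine key.trans ?_
  have c0 : 0 ≤ Cqf (Fintype.card (Fin n)) (Fintype.card (Fin n)) C := by
    have := b.C0
    unfold Cqf
    positivity
  have ec : (Fintype.card (Fin n) : ℝ) = n := by simp
  rw [ec] at c0 ⊢
  refine mul_le_mul_of_nonneg_left ?_ c0
  set g := H747.A.NG q d z
  have h1 : g ≤ g ^ 2 := by nlinarith
  have h2 : (q.R)⁻¹ * g ^ 2 ≤ g ^ 2 := mul_le_of_le_one_left (sq_nonneg _) (δR1 hg)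
  have h3 : 0 ≤ x ^ 2 + y ^ 2 := by positivity
  nlinarith [mul_le_mul_of_nonneg_right (add_le_add h1 h2) h3]

/-- The set of the row. -/
def SR (q : Cst) (d : Pk n) : Set (VV n) := {z | 16 ≤ H747.A.rr d z ∧ d.uth q - 1 ≤ d.u q z}

theorem nb_MR {f : Cst → ℝ} (hf : NB_M₀ f) (q : Cst) : f q.b_R = f q :=
  (hf q.b_R).symm.trans (hf q)

theorem nb_cR {f : Cst → ℝ} (hf : NB_c' f) (q : Cst) : f q.b_R = f q :=
  (hf q.b_R).symm.trans (hf q)

/-- The weight is smooth on the region. -/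
theorem sW_ext (hg : Gc n q) (h : PkOk q d) : Sm (Ue q d) (d.W q) := by
  have hR : 0 < q.R := by linarith [hg.RR]
  have hr : ∀ z ∈ Ue q d, 0 < d.r2 z := fun z hz => by linarith [hz.2.2.1]
  have w := wd h hg.e0 hR hg.ε1 hg.nε hr
  have s1 : Sm (Ue q d) fun z => d.Φ (d.u q z) := h.ok.Φs.comp_contDiffOn
    (sm_u h hR hg.ε1 hg.nε).contDiffOn
  have s2 : Sm (Ue q d) fun z => Dc q 0 0 (d.u q z + Sl0 q (jr d z)) (jr d z) := by
    have sr := sm_jr h hR hg.ε1 hg.nε hr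
    have sS : Sm (Ue q d) fun z => Sl0 q (jr d z) :=
      (sm_Sl0 hg.e0).comp sr fun z hz => jr_pos hr hz
    exact (h.sl.sm 0 0).comp (((sm_u h hR hg.ε1 hg.nε).contDiffOn.add sS).prodMk sr)
      fun z hz => jr_pos hr hz
  exact (s1.add s2).congr fun z hz => W_eqOn h hR.le hr (fun z hz => ⟨hz.1.le, hz.2.1.le⟩) z hz

/-- **The total inequality on the reverse pass, `r ≥ 16`.** -/
theorem rowTotR (n : ℕ) : H747.A.RowTotOn n SR := by
  intro μ₀ ηA CF hμ hη hCF μ0 η0 CF0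
  rcases Nat.eq_zero_or_pos n with h0 | hn
  · subst h0
    refine ((Gc.ev 0)).mono fun q hg d h z hz hS => ?_
    exfalso
    have h1 := r2_le hg h z
    have h2 : HY.sq (z.1 - z.2) = 0 := by simp [HY.sq]
    have h3 : (16 : ℝ) ^ 2 ≤ d.r2 z := (Real.le_sqrt' (by norm_num)).1 hS.1
    rw [h2] at h1
    linarith
  · obtain ⟨CB, hCB, hCB1, hB⟩ := b0_cr (n := n) hn
    set T : Cst → ℝ := fun q => (Cqf n n (CB q) ^ 2 * n + 3 * Cqf n n (CB q)) /
      (ηA q * (q.rT ^ 2 / 128)) + 1 with hT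
    have ev1 : EvC fun q => 0 < q.σ → 0 < q.r₁ →
        T q ≤ q.σ / (800 * q.R) * Real.exp √(q.r₁ * q.R) ∧ q.r₁ ≤ q.R := by
      have h1 := EvC.at_R (fun q t => 0 < q.σ → 0 < q.r₁ →
        T q ≤ q.σ / (800 * t) * Real.exp √(q.r₁ * t) ∧ q.r₁ ≤ t) fun q => by
          by_cases h : 0 < q.σ ∧ 0 < q.r₁
          · filter_upwards [thr_ev (T := T q) h.1 h.2, eventually_ge_atTop q.r₁] with t h1 h2
            exact fun _ _ => ⟨h1, h2⟩
          · exact Eventually.of_forall fun t h1 h2 => absurd ⟨h1, h2⟩ h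
      refine h1.mono fun q hq => ?_
      have e1 : T q.b_R = T q := by
        simp only [hT]
        rw [nb_MR hCB, nb_cR hη]
        rfl
      rw [e1] at hq
      exact hq
    have ev2 : EvC fun q => q.κ₁ ≤ 1 / 2 :=
      EvC.at_κ₁ (fun _ t => t ≤ 1 / 2) fun _ => sml_le (by norm_num)
    refine (((((Gc.ev n).and Es_ev).and ev1).and ev2).and EvC.pos).mono ?_
    rintro q ⟨⟨⟨⟨hg, hes⟩, hT1⟩, hκ⟩, -, hp⟩ d h z hz hS c c' cert -
    have hM := M_pos hg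
    have hr1p : 0 < q.r₁ := by
      have := hes.c0
      unfold Cst.r₁
      positivity
    obtain ⟨hT1, hr1⟩ := hT1 hg.σ0 hr1p
    have hR : 0 < q.R := by linarith [hg.RR]
    have hG := G_rev hg hes hp.1.1.le hκ hr1 h hz.1 hS.1 hS.2
    have hG0 : 0 < H747.A.GG q d z := lt_of_lt_of_le (by positivity) hG
    have hN : q.M₀ ≤ d.N q z := N_ge h _
    have hM1 : 1 ≤ q.M₀ := by
      have := Real.add_one_le_exp (1 : ℝ)
      linarith [hg.M1]
    have g1 : 1 ≤ H747.A.NG q d z := by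
      unfold H747.A.NG
      linarith
    have hrr : 0 < H747.A.rr d z := by linarith [hS.1]
    -- the margin is large
    have hm : T q ≤ H747.A.mA μ₀ q d z := by
      refine hT1.trans ?_
      have h1 : 0 ≤ μ₀ q * (H747.A.GG q d z / H747.A.rr d z) := by
        have := μ0 q
        positivity
      have h2 : q.σ / (800 * q.R) * Real.exp √(q.r₁ * q.R) ≤
          q.σ / (400 * q.R) * H747.A.NG q d z := by
        have h3 : 0 ≤ q.σ / (400 * q.R) := by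
          have := hg.σ0
          positivity
        have h4 : 1 / 2 * Real.exp √(q.r₁ * q.R) ≤ H747.A.NG q d z := by
          unfold H747.A.NG
          linarith
        calc q.σ / (800 * q.R) * Real.exp √(q.r₁ * q.R) =
            q.σ / (400 * q.R) * (1 / 2 * Real.exp √(q.r₁ * q.R)) := by
              field_simp
              ring
          _ ≤ _ := mul_le_mul_of_nonneg_left h4 h3
      unfold H747.A.mA
      linarith
    have hzU : z ∈ Ue q d := OmB_Ue hg hp.1.1.le hκ h hz.1 (by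
      have h3 : (16 : ℝ) ^ 2 ≤ d.r2 z := (Real.le_sqrt' (by norm_num)).1 hS.1
      linarith)
    have b := hB q hg hes d h z hzU
    have hC0 : 0 ≤ Cqf n n (CB q) := by
      have := hCB1 q
      unfold Cqf
      positivity
    have hηc : 0 < ηA q * (q.rT ^ 2 / 128) := by
      have := η0 q
      have := hg.rT
      positivity
    have hT0 : 0 ≤ (Cqf n n (CB q) ^ 2 * n + 3 * Cqf n n (CB q)) / (ηA q * (q.rT ^ 2 / 128)) := by
      positivity
    obtain ⟨f1, f2⟩ := F_low hg h z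
    have w1 := hz.2.1
    have w2 := hz.2.2
    refine tot_cr (Q := Cqf n n (CB q)) (g := H747.A.NG q d z) (ν := n) (cF := q.rT ^ 2 / 128)
      (by exact_mod_cast hn) (by simp) (qf_cr hg h (Ue_open hg h) (sW_ext hg h) hzU b g1)
      ?_ ?_ (fun A => (H657.A.ss_x (Rg.t1 h.rg) hg.nε z A).2)
      (fun A => (H657.A.ss_y (Rg.t2 h.rg) hg.nε z A).2) (η0 q).le ?_ ?_ ?_
    · calc q.rT ^ 2 / 128 * H747.A.NG q d z ^ 2 = 1 / 2 * (q.rT / 8 * H747.A.NG q d z) ^ 2 := by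
            ring
        _ ≤ 1 / 2 * H747.A.Wx2 q d z := by linarith
        _ ≤ _ := f1
    · calc q.rT ^ 2 / 128 * H747.A.NG q d z ^ 2 = 1 / 2 * (q.rT / 8 * H747.A.NG q d z) ^ 2 := by
            ring
        _ ≤ 1 / 2 * H747.A.Wy2 q d z := by linarith
        _ ≤ _ := f2
    · simp only [hT] at hm
      linarith
    · simp only [hT] at hm
      have h5 : (Cqf n n (CB q) ^ 2 * n + 3 * Cqf n n (CB q)) / (ηA q * (q.rT ^ 2 / 128)) ≤
          H747.A.mA μ₀ q d z := by linarith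
      rw [div_le_iff₀ hηc] at h5
      linarith
    · intro A B
      have h6 := cert A B
      have e1 : ∀ A : Fin n → ℝ, H230.W.dd A A = ∑ i, A i ^ 2 := fun A => by
        unfold H230.W.dd
        exact Finset.sum_congr rfl fun i _ => (pow_two _).symm
      rw [e1, e1] at h6
      exact h6

end Vale.Agent.P088.R2.H768.A
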