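import Vale.Agent.P088.R2.H768.A.RowWd
import Vale.Agent.P088.R2.H644.N.PkS
import Vale.Agent.P088.R2.H657.A.Fi

/-!
# P088, stage 3: all slot quantities of the weight of the package for `2 < r < R`

`fam_ext`: `B0` with `K + N / R + G`, `G = D₁₀(u + log S, r)`, uniform in the family.
`b0_ext`: the constant is a function of the constants before `M₀`. `b0_cr`: the crude form, all
derivatives of order at least one are `O(N + G)`.
-/

open Set Filter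
open scoped ContDiff Topology Matrix

noncomputable section

namespace Vale.Agent.P088.R2.H768.A

open Vale.Agent.P088.LR Vale.Agent.P088.HY Vale.Agent.P088.R2.H464.Cu
open Vale.Agent.P088.R2.H961.GW Vale.Agent.P088.R2.H31.EP Vale.Agent.P088.R2.H644.Sy
open Vale.Agent.P088.R2.H644.Ep Vale.Agent.P088.R2.H644.Pf Vale.Agent.P088.R2.H657.W
open Vale.Agent.P088.R2.H768.FarI Vale.Agent.P088.R2.H768.FarJ

/-! ## The derivative of the stiff part -/

section gen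

variable {α E : Type*} [NormedAddCommGroup E] [NormedSpace ℝ E] {U : α → Set E}
  {φ r G : α → E → ℝ} {D : α → ℕ → ℕ → ℝ → ℝ → ℝ} {k : ℕ}

theorem fd1 (h : Fc U φ r G D k) :
    Sf U (fun _ _ => (1 : ℝ)) G (k + 3) (fun a => fderiv ℝ (Fd D φ r 0 0 a)) := by
  have e1 : Sf U (fun _ _ => (1 : ℝ)) (fun _ _ => 1) (k + 3) (fun a => fderiv ℝ (φ a)) :=
    h.sc (fun _ _ _ => zero_le_one) h.dφ
  have e2 : Sf U (fun _ _ => (1 : ℝ)) (fun _ _ => 1) (k + 3) (fun a => fderiv ℝ (r a)) := by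
    refine h.sc (fun _ _ _ => zero_le_one) ?_
    exact (h.dr.fd h.op).wcongr fun a z hz => (mul_inv_cancel₀ (h.rp hz).ne').symm
  have h1 := (h.sF (k + 3) le_rfl (0 + 1) 0 (by omega)).smul h.op e1
  have h2 := (h.sF (k + 3) le_rfl 0 (0 + 1) (by omega)).smul h.op e2
  exact ((h1.add h.op h2).congr h.op fun a z hz => (h.fdF 0 0 hz).fderiv).wcongr
    fun a z _ => by simp

end gen

/-! ## Monotonicity of `B0` -/

section mono

variable {E ι κ : Type*} [NormedAddCommGroup E] [NormedSpace ℝ E] [Fintype ι] [Fintype κ]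
  {σ : Sl E ι} {τ : Sl E κ} {W : E → ℝ} {z : E} {C C' m k' k'' δ : ℝ}

/-- Larger constants. -/
theorem B0_mono (b : B0 σ τ W z C m k' δ) (hC : C ≤ C') (hk : C * k' ≤ C' * k'')
    (h0 : 0 ≤ k'') : B0 σ τ W z C' m k'' δ :=
  have h1 : C * δ ≤ C' * δ := mul_le_mul_of_nonneg_right hC b.δ0
  have h2 : C * m ≤ C' * m := mul_le_mul_of_nonneg_right hC b.n0
  { C0 := b.C0.trans hC
    n0 := b.n0
    k0 := h0
    δ0 := b.δ0
    δ1 := b.δ1
    s1 := fun i j => (b.s1 i j).trans hC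
    s2 := fun i j => (b.s2 i j).trans hC
    ds1 := fun l i j => (b.ds1 l i j).trans h1
    ds2 := fun l i j => (b.ds2 l i j).trans h1
    dds1 := fun l k i j => (b.dds1 l k i j).trans h1
    dds2 := fun l k i j => (b.dds2 l k i j).trans h1
    d1 := fun i => (b.d1 i).trans h2
    d2 := fun i => (b.d2 i).trans h2
    d11 := fun i j => (b.d11 i j).trans hk
    d12 := fun i j => (b.d12 i j).trans hk
    d22 := fun i j => (b.d22 i j).trans hk
    L1 := b.L1.trans hk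
    L2 := b.L2.trans hk
    D11 := fun i => (b.D11 i).trans hk
    D12 := fun i => (b.D12 i).trans hk
    D21 := fun i => (b.D21 i).trans hk
    D22 := fun i => (b.D22 i).trans hk
    L11 := b.L11.trans hk
    L12 := b.L12.trans hk
    L22 := b.L22.trans hk }

end mono

variable {n k : ℕ} {q q₀ : Cst} {d : Pk n} {c : ℝ}

/-- `r² ≤ 2 |x - y|²`. -/
theorem r2_le (hg : Gc n q) (h : PkOk q d) (z : VV n) : d.r2 z ≤ 2 * HY.sq (z.1 - z.2) := by
  have h1 := (gi_tr hg h).nr (by norm_num) univ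
  have h2 := (rq_bd h1 hg.nε' (mem_univ (mid z))).2
  have e : dt (dif z) (dif z) = HY.sq (z.1 - z.2) := by
    unfold dt HY.sq
    refine Finset.sum_congr rfl fun i _ => ?_
    simp [dif, pow_two]
  rw [e] at h2
  exact mul_le_mul_of_nonneg_left h2 zero_le_two

/-! ## The region -/

/-- The region `2 < r < R` below the level `l₀ + (26/10) R`. -/
def Ue (q : Cst) (d : Pk n) : Set (VV n) :=
  {z | d.l z.1 < d.l₀ q + 26 / 10 * q.R ∧ d.l z.2 < d.l₀ q + 26 / 10 * q.R ∧ 4 < d.r2 z ∧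
    d.r2 z < q.R ^ 2}

theorem Ue_open (hg : Gc n q) (h : PkOk q d) : IsOpen (Ue q d) := by
  have h1 : Continuous fun z : VV n => d.l z.1 := h.lev.sm.continuous.comp continuous_fst
  have h2 : Continuous fun z : VV n => d.l z.2 := h.lev.sm.continuous.comp continuous_snd
  have h3 := (r2_sm hg h).continuous
  exact (isOpen_lt h1 continuous_const).inter ((isOpen_lt h2 continuous_const).inter
    ((isOpen_lt continuous_const h3).inter (isOpen_lt h3 continuous_const)))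

theorem Ue_x (hg : Gc n q) {z : VV n} (hz : z ∈ Ue q d) : z.1 ∈ OO q d := by
  have := hz.1
  have := hg.R1
  show d.l z.1 < d.l₀ q + 3 * q.R
  linarith

theorem Ue_y (hg : Gc n q) {z : VV n} (hz : z ∈ Ue q d) : z.2 ∈ OO q d := by
  have := hz.2.1
  have := hg.R1
  show d.l z.2 < d.l₀ q + 3 * q.R
  linarith

theorem Ue_r (hg : Gc n q) {z : VV n} (hz : z ∈ Ue q d) : √(d.r2 z) ≤ 1 * q.R := by
  rw [one_mul, Real.sqrt_le_left (by linarith [hg.R1])]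
  exact hz.2.2.2.le

/-- `u = l(x) + l(y)` for `r ≥ 2`. -/
theorem u_far (h : PkOk q d) {z : VV n} (hz : 4 ≤ d.r2 z) : d.u q z = uf d.l z := by
  have h1 : (d.F q).χ (H31.EP.r2 (gi d.s₁) z) = 0 := h.χ0 _ hz
  unfold Pk.u H31.EP.uu
  rw [h1, zero_mul, mul_zero, add_zero]
  rfl

/-- `G` of zone A is `D₁₀(φ, r)`. -/
theorem GG_eq (h : PkOk q d) {z : VV n} (hz : 4 ≤ d.r2 z) :
    H747.A.GG q d z = q.D 1 0 (jφ q d z, jr d z) := by
  have h4 : H747.A.rr d z ^ 2 = H31.EP.r2 (gi d.s₁) z := Real.sq_sqrt (by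
    have : d.r2 z = H31.EP.r2 (gi d.s₁) z := rfl
    linarith)
  unfold H747.A.GG H747.A.D₂ H747.A.ff H747.A.lS jφ
  rw [h4, u_far h hz]
  rfl

/-- **The weight for `2 < r`.** -/
theorem W_ext (hg : Gc n q) (h : PkOk q d) {z : VV n} (hz : z ∈ Ue q d) :
    d.W q z = d.Φ (uf d.l z) + q.D 0 0 (jφ q d z, jr d z) := by
  have h4 : jr d z ^ 2 = H31.EP.r2 (gi d.s₁) z := Real.sq_sqrt (by
    have : d.r2 z = H31.EP.r2 (gi d.s₁) z := rfl
    linarith [hz.2.2.1])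
  have h1 := W_eq h (by linarith [hz.2.2.1]) (by linarith [hg.R1]) hz.1.le hz.2.1.le
  rw [h1]
  unfold Vale.Agent.P088.R2.H230.W.wt Dc Sl0 jφ
  rw [h4, u_far h hz.2.2.1.le]

/-! ## The family -/

theorem Fa_es (a : Fa n q₀) : a.q.es = q₀.es := by
  have h := congrArg Cst.es a.eq
  exact h

theorem Fa_c' (a : Fa n q₀) : a.q.c' = q₀.c' := by
  have h := congrArg Cst.c' a.eq
  exact h

/-- The family of the region. -/
theorem fj_ext (hn : 1 ≤ n) (q₀ : Cst) (he : 0 < q₀.e₁) (hs : 0 ≤ q₀.es) (hs' : q₀.es ≤ 1)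
    (hc' : q₀.c' ≤ 1) : Fj (fun a : Fa n q₀ => a.q) (fun a => a.d) q₀.e₁ 1 4
      (fun a => OO a.q a.d) (fun a => Ue a.q a.d) 1 where
  e0 := he
  e a := a.e₁
  c0 := by norm_num
  sl a := a.ok.sl
  M0 a := (M_pos a.g).le
  s0 a := by
    rw [Fa_es a]; exact hs
  s1 a := by
    rw [Fa_es a]; exact hs'
  c1 a := by
    rw [Fa_c' a]; exact hc'
  lg := lgI hn (by norm_num) (fun a => Ue_open a.g a.ok) (fun a z hz => Ue_x a.g hz)
    (fun a z hz => Ue_y a.g hz) fun a z hz => Ue_r a.g hz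
  h0 a z hz := hz.2.2.1

/-- The slope along `u`. -/
theorem sc_ext (q₀ : Cst) : H657.A.Sc (fun a : Fa n q₀ => Ue a.q a.d) (fun a => a.d.l)
    (fun a => a.d.Φ) := by
  have p := pcI n q₀
  obtain ⟨C, h0, hC⟩ := p.kn
  exact
  { s := p.s
    n := fun a z _ => p.n a _
    k := fun a z _ => p.k a _
    kn := ⟨C, h0, fun a z _ => hC a _⟩
    kd := fun j _ => by
      obtain ⟨C, hC⟩ := p.kd j
      exact ⟨C, fun a z _ => hC a _⟩ }

/-- **The weight data of the region.** -/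
theorem wg_ext (hn : 1 ≤ n) (q₀ : Cst) (he : 0 < q₀.e₁) (hs : 0 ≤ q₀.es) (hs' : q₀.es ≤ 1)
    (hc' : q₀.c' ≤ 1) : Wg (fun a : Fa n q₀ => Ue a.q a.d) (fun a => uf a.d.l)
      (fun a => a.d.Φ)
      (Fd (cD fun a : Fa n q₀ => a.q.D) (fun a => jφ a.q a.d) (fun a => jr a.d) 0 0)
      (H657.A.fN (fun a : Fa n q₀ => a.d.l) fun a => a.d.Φ)
      (H657.A.fK (fun a : Fa n q₀ => a.d.l) fun a => a.d.Φ) (fun a _ => (a.q.R)⁻¹)
      (gD (fun a : Fa n q₀ => a.q.D) (fun a => jφ a.q a.d) (fun a => jr a.d) 1 0)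
      (fun a _ => (a.q.R)⁻¹) 2 := by
  have f := fj_ext hn q₀ he hs hs' hc'
  have fc := f.fc
  exact
  { sp := H657.A.sp_of (A := 1) f.lg (sc_ext q₀)
    sF := fun a => fc.sD a 0 0
    F1 := (fd1 fc).mono_k (by norm_num)
    G0 := fun a z hz => (fc.G0 a z hz).le
    δ0 := fun a _ _ => inv_nonneg.2 (by linarith [a.g.R1])
    δ1 := fun a _ _ => δR1 a.g
    δw := ⟨1, zero_le_one, fun a z _ => by rw [one_mul]⟩ }

/-- **All slot quantities of the weight for `2 < r < R`.** -/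
theorem fam_ext (hn : 1 ≤ n) (q₀ : Cst) (he : 0 < q₀.e₁) (hs : 0 ≤ q₀.es) (hs' : q₀.es ≤ 1)
    (hc' : q₀.c' ≤ 1) : ∀ᶠ C : ℝ in atTop, ∀ a : Fa n q₀, ∀ z ∈ Ue a.q a.d,
      B0 a.d.sx a.d.sy (a.d.W a.q) z C (H747.A.NG a.q a.d z)
        (a.d.Kf a.q z + a.d.N a.q z * (a.q.R)⁻¹ + H747.A.GG a.q a.d z) (a.q.R)⁻¹ := by
  have w := wg_ext hn q₀ he hs hs' hc'
  have oO : ∀ a : Fa n q₀, IsOpen (OO a.q a.d) := fun a => OO_open a.ok
  have key := w.b0 (ft_x oO w.op (fun a z hz => Ue_x a.g hz)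
      (fun a => inv_nonneg.2 (by linarith [a.g.R1])) (tn1 (n := n) (k := 2) q₀ (by norm_num)))
    (ft_y oO w.op (fun a z hz => Ue_y a.g hz)
      (fun a => inv_nonneg.2 (by linarith [a.g.R1])) (tn2 (n := n) (k := 2) q₀ (by norm_num)))
  filter_upwards [key] with C hC a z hz
  have h1 := (hC a z hz).congr (w.op a) (W' := a.d.W a.q) (fun z hz => W_ext a.g a.ok hz) hz
  have e1 : H657.A.fN (fun a : Fa n q₀ => a.d.l) (fun a => a.d.Φ) a z = a.d.N a.q z := by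
    unfold H657.A.fN Pk.N
    rw [u_far a.ok hz.2.2.1.le]
  have e2 : H657.A.fK (fun a : Fa n q₀ => a.d.l) (fun a => a.d.Φ) a z = a.d.Kf a.q z := by
    unfold H657.A.fK Pk.Kf
    rw [u_far a.ok hz.2.2.1.le]
  have e3 : gD (fun a : Fa n q₀ => a.q.D) (fun a => jφ a.q a.d) (fun a => jr a.d) 1 0 a z =
      H747.A.GG a.q a.d z := (GG_eq a.ok hz.2.2.1.le).symm
  rw [kp, e1, e2, e3] at h1
  exact h1

theorem N0_of (hg : Gc n q) (h : PkOk q d) (u : ℝ) : 0 ≤ deriv d.Φ u :=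
  (M_pos hg).le.trans (N_ge h u)

theorem K_N (hg : Gc n q) (h : PkOk q d) (u : ℝ) :
    deriv (deriv d.Φ) u ≤ (|q.L| + 1 / 20) * deriv d.Φ u := by
  refine (h.top.k2 u).trans (mul_le_mul_of_nonneg_right ?_ (N0_of hg h u))
  linarith [le_abs_self q.L]

theorem G_nn (h : PkOk q d) {z : VV n} (hz : 0 < d.r2 z) : 0 < H747.A.GG q d z :=
  h.sl.G_pos _ (Real.sqrt_pos.2 hz)

/-- The conditions on the slow exponential. -/
structure Es (q : Cst) : Prop where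
  s0 : 0 ≤ q.es
  s1 : q.es ≤ 1 / 2
  c0 : 0 < q.c'
  c1 : q.c' ≤ 1

/-- **All slot quantities for `2 < r < R`, the constant depends on the constants before `M₀`.** -/
theorem b0_ext (hn : 1 ≤ n) : ∃ C : Cst → ℝ, NB_M₀ C ∧ (∀ q, 1 ≤ C q) ∧ ∀ q, Gc n q → Es q →
    ∀ d : Pk n, PkOk q d → ∀ z ∈ Ue q d, B0 d.sx d.sy (d.W q) z (C q) (H747.A.NG q d z)
      (d.Kf q z + d.N q z * (q.R)⁻¹ + H747.A.GG q d z) (q.R)⁻¹ := by
  have key : ∀ q₀ : Cst, ∃ C : ℝ, 1 ≤ C ∧ ∀ a : Fa n q₀, Es a.q → ∀ z ∈ Ue a.q a.d,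
      B0 a.d.sx a.d.sy (a.d.W a.q) z C (H747.A.NG a.q a.d z)
        (a.d.Kf a.q z + a.d.N a.q z * (a.q.R)⁻¹ + H747.A.GG a.q a.d z) (a.q.R)⁻¹ := by
    intro q₀
    by_cases hq : 0 < q₀.e₁ ∧ 0 ≤ q₀.es ∧ q₀.es ≤ 1 ∧ q₀.c' ≤ 1
    · obtain ⟨C, h1, h2⟩ := ((fam_ext hn q₀ hq.1 hq.2.1 hq.2.2.1 hq.2.2.2).and
        (eventually_ge_atTop 1)).exists
      exact ⟨C, h2, fun a _ => h1 a⟩
    · refine ⟨1, le_rfl, fun a h1 => absurd ⟨?_, ?_, ?_, ?_⟩ hq⟩
      · rw [← a.e₁]; exact a.g.e0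
      · rw [← Fa_es a]; exact h1.s0
      · rw [← Fa_es a]; linarith [h1.s1]
      · rw [← Fa_c' a]; exact h1.c1
  choose C hC0 hC using key
  exact ⟨fun q => C q.b_M₀, fun q => rfl, fun q => hC0 _, fun q hg hc d hd z hz =>
    hC q.b_M₀ ⟨q, d, rfl, hg, hd⟩ hc z hz⟩

/-- **The crude bounds: everything is `O(N + G)`.** -/
theorem b0_cr (hn : 1 ≤ n) : ∃ C : Cst → ℝ, NB_M₀ C ∧ (∀ q, 1 ≤ C q) ∧ ∀ q, Gc n q → Es q →
    ∀ d : Pk n, PkOk q d → ∀ z ∈ Ue q d, B0 d.sx d.sy (d.W q) z (C q) (H747.A.NG q d z)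
      (H747.A.NG q d z) (q.R)⁻¹ := by
  obtain ⟨C, h1, h2, h3⟩ := b0_ext (n := n) hn
  refine ⟨fun q => C q * (|q.L| + 3), fun q => ?_, fun q => ?_, fun q hg hc d hd z hz => ?_⟩
  · show C q.b_M₀ * (|q.b_M₀.L| + 3) = _
    rw [h1 q]
    rfl
  · have := h2 q
    have := abs_nonneg q.L
    nlinarith
  · have hN : 0 ≤ d.N q z := N0_of hg hd _
    have hG := G_nn hd (z := z) (by linarith [hz.2.2.1])
    have hK : d.Kf q z ≤ (|q.L| + 1 / 20) * d.N q z := K_N hg hd _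
    have hR := δR1 hg
    have hL := abs_nonneg q.L
    have hC := h2 q
    have hk : d.Kf q z + d.N q z * (q.R)⁻¹ + H747.A.GG q d z ≤
        (|q.L| + 3) * H747.A.NG q d z := by
      unfold H747.A.NG
      have h5 : d.N q z * (q.R)⁻¹ ≤ d.N q z := mul_le_of_le_one_right hN hR
      nlinarith [mul_nonneg hL hG.le]
    refine B0_mono (h3 q hg hc d hd z hz) ?_ ?_ (add_nonneg hN hG.le)
    · nlinarith
    · rw [mul_assoc]
      exact mul_le_mul_of_nonneg_left hk (by linarith)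

/-! ## Zone A -/

/-- Zone A with `r > 2` is in the region. -/
theorem OmB_Ue (hg : Gc n q) (hκ0 : 0 ≤ q.κ₁) (hκ : q.κ₁ ≤ 1 / 2) (h : PkOk q d) {z : VV n}
    (hz : z ∈ H747.A.OmB q d) (h2 : 4 < d.r2 z) : z ∈ Ue q d := by
  have hR := hg.R1
  obtain ⟨-, a2, a3, a4, -⟩ := hz
  refine ⟨by linarith, by linarith, h2, ?_⟩
  have h3 := r2_le hg h z
  have h4 : (q.κ₁ * q.R) ^ 2 ≤ (1 / 2 * q.R) ^ 2 :=
    pow_le_pow_left₀ (by positivity) (mul_le_mul_of_nonneg_right hκ (by linarith)) 2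
  nlinarith

theorem Es_ev : EvC Es := by
  have h1 : EvC fun q => q.es ≤ 1 / 2 :=
    EvC.at_es (fun _ t => t ≤ 1 / 2) fun _ => sml_le (by norm_num)
  have h2 : EvC fun q => q.c' ≤ 1 :=
    EvC.at_c' (fun _ t => t ≤ 1) fun _ => sml_le (by norm_num)
  refine ((EvC.pos.and h1).and h2).mono ?_
  rintro q ⟨⟨⟨⟨a1, a2, a3, a4, a5, a6, a7, a8, a9, a10⟩, ⟨b1, b2, b3, b4, b5, b6, b7⟩, b8⟩, c1⟩, c2⟩
  exact ⟨b4.le, c1, b3, c2⟩

end Vale.Agent.P088.R2.H768.A
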