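import Vale.Agent.P088.R2.H768.A.FarW
import Vale.Agent.P088.R2.H644.N.PkH

/-!
# P088, stage 3: all derivatives of `u`, `r`, `N`, `K`, `G`, `W` on the package for `2 < r < R`

`de_ext`: the bounds of the iterated derivatives up to order seven, with constants depending on the
constants before `M₀`; `G = D₁₀(u + log S, r)`. `mA_ext`: the margin of zone A.
-/

open Set Filter
open scoped ContDiff Topology Matrix

noncomputable section

namespace Vale.Agent.P088.R2.H768.A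

open Vale.Agent.P088.LR Vale.Agent.P088.HY Vale.Agent.P088.R2.H464.Cu
open Vale.Agent.P088.R2.H961.GW Vale.Agent.P088.R2.H31.EP Vale.Agent.P088.R2.H644.Sy
open Vale.Agent.P088.R2.H644.Ep Vale.Agent.P088.R2.H644.Pf Vale.Agent.P088.R2.H657.W
open Vale.Agent.P088.R2.H768.FarI Vale.Agent.P088.R2.H768.FarJ
open Vale.Agent.P088.R2.H313.Mu (b0 b1 sw)

variable {n k : ℕ} {q q₀ : Cst} {d : Pk n} {c : ℝ}

/-- The family of the region, more derivatives. -/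
theorem fj_ext' (hn : 1 ≤ n) (hk : k + 4 ≤ 12) (q₀ : Cst) (he : 0 < q₀.e₁) (hs : 0 ≤ q₀.es)
    (hs' : q₀.es ≤ 1) (hc' : q₀.c' ≤ 1) : Fj (fun a : Fa n q₀ => a.q) (fun a => a.d) q₀.e₁ 1 4
      (fun a => OO a.q a.d) (fun a => Ue a.q a.d) k :=
  { fj_ext hn q₀ he hs hs' hc' with
    lg := lgI hn hk (fun a => Ue_open a.g a.ok) (fun a z hz => Ue_x a.g hz)
      (fun a z hz => Ue_y a.g hz) fun a z hz => Ue_r a.g hz }

/-- The bounds of the derivatives of `u`, `r`, `N`, `K`, `G`, `W`, `G / r` (`r > 2`). -/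
structure De (C : ℝ) (q : Cst) (d : Pk n) (z : VV n) : Prop where
  u1 : ∀ j ≤ 6, ‖iteratedFDeriv ℝ (j + 1) (d.u q) z‖ ≤ C
  u2 : ∀ j ≤ 6, ‖iteratedFDeriv ℝ (j + 2) (d.u q) z‖ ≤ C * (q.R)⁻¹
  r : ∀ j ≤ 6, ‖iteratedFDeriv ℝ j (H747.A.rr d) z‖ ≤
    C * (H747.A.rr d z * (H747.A.rr d z)⁻¹ ^ j)
  N : ∀ j ≤ 6, ‖iteratedFDeriv ℝ j (d.N q) z‖ ≤ C * d.N q z
  K : ∀ j ≤ 6, ‖iteratedFDeriv ℝ j (d.Kf q) z‖ ≤ C * d.Kf q z
  G : ∀ j ≤ 6, ‖iteratedFDeriv ℝ j (H747.A.GG q d) z‖ ≤ C * H747.A.GG q d z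
  Gr : ∀ j ≤ 6, ‖iteratedFDeriv ℝ j (fun z => H747.A.GG q d z / H747.A.rr d z) z‖ ≤
    C * (H747.A.GG q d z / H747.A.rr d z)
  W : ∀ j ≤ 6, ‖iteratedFDeriv ℝ (j + 1) (d.W q) z‖ ≤ C * H747.A.NG q d z

theorem de_fam (hn : 1 ≤ n) (q₀ : Cst) (he : 0 < q₀.e₁) (hs : 0 ≤ q₀.es) (hs' : q₀.es ≤ 1)
    (hc' : q₀.c' ≤ 1) : ∃ C : ℝ, 1 ≤ C ∧ ∀ a : Fa n q₀, ∀ z ∈ Ue a.q a.d, De C a.q a.d z := by
  have fj := fj_ext' (k := 6) hn (by norm_num) q₀ he hs hs' hc'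
  have fc := fj.fc
  have lg : Lg (fun a : Fa n q₀ => OO a.q a.d) (fun a => Ue a.q a.d) (fun a => a.q.R)
      (fun a => a.d.l) (fun a => gi a.d.s₁) 1 9 := fj.lg
  have m := mcI n q₀
  have hU : ∀ a : Fa n q₀, IsOpen (Ue a.q a.d) := fc.op
  have sp : Sp (fun a : Fa n q₀ => Ue a.q a.d) (fun a => H31.EP.uu (a.d.F a.q) a.d.l (gi a.d.s₁))
      (fun a => (a.d.F a.q).Φ) (Nu (fun a : Fa n q₀ => a.d.F a.q) (fun a => a.d.l)
        fun a => gi a.d.s₁) (Ku (fun a : Fa n q₀ => a.d.F a.q) (fun a => a.d.l)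
        fun a => gi a.d.s₁) (ww (fun a : Fa n q₀ => a.q.R) (fun a => b0 1 a.q.M₀)
        (fun a => b1 1 a.q.M₀) fun a => gi a.d.s₁) 8 := sp_uu (pcI n q₀) m lg
  -- the symbols
  have s1 : Sf (fun a : Fa n q₀ => Ue a.q a.d) (fun _ _ => 1) (fun _ _ => 1) 6
      (fun a => fderiv ℝ (a.d.u a.q)) := (s_du m lg).mono_k (by norm_num)
  have hw : ∀ a : Fa n q₀, ∀ z ∈ Ue a.q a.d, (a.q.R)⁻¹ = ww (fun a : Fa n q₀ => a.q.R)
      (fun a => b0 1 a.q.M₀) (fun a => b1 1 a.q.M₀) (fun a => gi a.d.s₁) a z := by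
    intro a z hz
    unfold ww
    have e1 : tw (fun a : Fa n q₀ => b0 1 a.q.M₀) (fun a => b1 1 a.q.M₀)
      (fun a => gi a.d.s₁) a z = 0 := tw_far hz.2.2.1
    rw [e1, add_zero]
  have s2 : Sf (fun a : Fa n q₀ => Ue a.q a.d) (fun _ _ => 1)
      (fun a _ => (a.q.R)⁻¹) 6 (fun a => fderiv ℝ (fderiv ℝ (a.d.u a.q))) :=
    ((s_ddu m lg).mono_k (by norm_num)).wcongr hw
  have s3 : Sf (fun a : Fa n q₀ => Ue a.q a.d) (fun a z => jr a.d z)
      (fun a z => jr a.d z) 6 (fun a z => jr a.d z) := fc.dr.mono_k (by norm_num)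
  have s3' : Sf (fun a : Fa n q₀ => Ue a.q a.d) (fun _ _ => 1)
      (fun a z => (jr a.d z)⁻¹) 6 (fun a z => (jr a.d z)⁻¹) := by
    refine fc.sc (fun a z hz => inv_nonneg.2 (fc.rp hz).le) ?_
    exact (s3.inv hU (fun a z hz => fc.rp hz) one_pos fun a z hz => by
      rw [one_mul, abs_of_pos (fc.rp hz)])
  have s4 : Sf (fun a : Fa n q₀ => Ue a.q a.d) (fun _ _ => 1)
      (fun a z => a.d.N a.q z) 6 (fun a z => a.d.N a.q z) := sp.p1.mono_k (by norm_num)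
  have s5 : Sf (fun a : Fa n q₀ => Ue a.q a.d) (fun _ _ => 1)
      (fun a z => a.d.Kf a.q z) 6 (fun a z => a.d.Kf a.q z) := sp.p2.mono_k (by norm_num)
  have eG : ∀ a : Fa n q₀, ∀ z ∈ Ue a.q a.d, H747.A.GG a.q a.d z =
      gD (fun a : Fa n q₀ => a.q.D) (fun a => jφ a.q a.d) (fun a => jr a.d) 1 0 a z :=
    fun a z hz => GG_eq a.ok hz.2.2.1.le
  have s6 : Sf (fun a : Fa n q₀ => Ue a.q a.d) (fun _ _ => 1)
      (fun a z => H747.A.GG a.q a.d z) 6 (fun a => H747.A.GG a.q a.d) :=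
    ((fc.sF 6 (by norm_num) 1 0 (by norm_num)).congr hU fun a z hz => eG a z hz).wcongr
      fun a z hz => eG a z hz
  have s6' : Sf (fun a : Fa n q₀ => Ue a.q a.d) (fun _ _ => 1)
      (fun a z => H747.A.GG a.q a.d z / H747.A.rr a.d z) 6
      (fun a z => H747.A.GG a.q a.d z / H747.A.rr a.d z) :=
    ((s6.mul hU s3').congr hU fun a z _ => div_eq_mul_inv _ _).wcongr fun a z _ =>
      div_eq_mul_inv _ _
  have GGn : ∀ a : Fa n q₀, ∀ z ∈ Ue a.q a.d, 0 ≤ H747.A.GG a.q a.d z := fun a z hz => by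
    rw [eG a z hz]
    exact (fc.G0 a z hz).le
  have s7 : Sf (fun a : Fa n q₀ => Ue a.q a.d) (fun _ _ => 1)
      (fun a z => H747.A.NG a.q a.d z) 6 (fun a => fderiv ℝ (a.d.W a.q)) := by
    have t1 : Sf (fun a : Fa n q₀ => Ue a.q a.d) (fun _ _ => 1)
        (fun a z => a.d.N a.q z) 6 (fun a z => a.d.N a.q z • fderiv ℝ (a.d.u a.q) z) :=
      (s4.smul hU s1).wcongr fun a z _ => by simp
    have t2 : Sf (fun a : Fa n q₀ => Ue a.q a.d) (fun _ _ => 1)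
        (fun a z => H747.A.GG a.q a.d z) 6 (fun a => fderiv ℝ (Fd (cD fun a : Fa n q₀ => a.q.D)
          (fun a => jφ a.q a.d) (fun a => jr a.d) 0 0 a)) :=
      ((fd1 fc).mono_k (by norm_num)).wcongr fun a z hz => eG a z hz
    refine (Sf.add' hU (fun _ _ _ => one_pos) (fun a z _ => N_nn a.g a.ok z)
      (fun a z hz => GGn a z hz) t1 t2).congr hU fun a z hz => ?_
    have e1 : a.d.W a.q =ᶠ[𝓝 z] fun z => a.d.Φ (a.d.u a.q z) +
        Fd (cD fun a : Fa n q₀ => a.q.D) (fun a => jφ a.q a.d) (fun a => jr a.d) 0 0 a z := by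
      filter_upwards [(hU a).mem_nhds hz] with y hy
      rw [W_ext a.g a.ok hy, u_far a.ok hy.2.2.1.le]
      rfl
    rw [e1.fderiv_eq]
    have d1 : HasDerivAt a.d.Φ (a.d.N a.q z) (a.d.u a.q z) :=
      (a.ok.top.sm.differentiable (by simp) _).hasDerivAt
    have d2 : HasFDerivAt (a.d.u a.q) (fderiv ℝ (a.d.u a.q) z) z :=
      ((((sm_uu m lg a) z hz).contDiffAt ((hU a).mem_nhds hz)).differentiableAt
        (by simp)).hasFDerivAt
    have d3 : HasFDerivAt (Fd (cD fun a : Fa n q₀ => a.q.D) (fun a => jφ a.q a.d)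
        (fun a => jr a.d) 0 0 a) _ z := fc.fdF 0 0 hz
    exact ((d1.comp_hasFDerivAt z d2).add d3).fderiv.trans (by rw [← d3.fderiv])
  -- the constants
  obtain ⟨C, c1, c2, c3, c4, c5, c6, c6', c7, c8⟩ :=
    ((s1.all (fun _ _ _ => zero_le_one) (fun _ _ _ => zero_le_one)).and
    ((s2.all (fun a z _ => inv_nonneg.2 (by linarith [a.g.R1])) (fun _ _ _ => zero_le_one)).and
    ((s3.all (fun a z _ => Real.sqrt_nonneg _) (fun a z _ => Real.sqrt_nonneg _)).and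
    ((s4.all (fun a z _ => N_nn a.g a.ok z) (fun _ _ _ => zero_le_one)).and
    ((s5.all (fun a z _ => K_nn a.ok z) (fun _ _ _ => zero_le_one)).and
    ((s6.all (fun a z hz => GGn a z hz) (fun _ _ _ => zero_le_one)).and
    ((s6'.all (fun a z hz => div_nonneg (GGn a z hz) (Real.sqrt_nonneg _))
      (fun _ _ _ => zero_le_one)).and
    ((s7.all (fun a z hz => add_nonneg (N_nn a.g a.ok z) (GGn a z hz))
      (fun _ _ _ => zero_le_one)).and (eventually_ge_atTop 1))))))))).exists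
  refine ⟨C, c8, fun a z hz => ?_⟩
  refine ⟨fun j hj => ?_, fun j hj => ?_, fun j hj => ?_, fun j hj => ?_, fun j hj => ?_,
    fun j hj => ?_, fun j hj => ?_, fun j hj => ?_⟩
  · have := c1 j hj a z hz
    rwa [norm_iteratedFDeriv_fderiv, inv_one, one_pow, mul_one, mul_one] at this
  · have := c2 j hj a z hz
    rwa [norm_iteratedFDeriv_fderiv, norm_iteratedFDeriv_fderiv, inv_one, one_pow,
      mul_one] at this
  · exact c3 j hj a z hz
  · have := c4 j hj a z hz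
    rwa [inv_one, one_pow, mul_one] at this
  · have := c5 j hj a z hz
    rwa [inv_one, one_pow, mul_one] at this
  · have := c6 j hj a z hz
    rwa [inv_one, one_pow, mul_one] at this
  · have := c6' j hj a z hz
    rwa [inv_one, one_pow, mul_one] at this
  · have := c7 j hj a z hz
    rwa [norm_iteratedFDeriv_fderiv, inv_one, one_pow, mul_one] at this

/-- **All derivatives of `u`, `r`, `N`, `K`, `G`, `W` on the package for `2 < r < R`.** -/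
theorem de_ext (hn : 1 ≤ n) : ∃ C : Cst → ℝ, NB_M₀ C ∧ (∀ q, 1 ≤ C q) ∧ ∀ q, Gc n q → Es q →
    ∀ d : Pk n, PkOk q d → ∀ z ∈ Ue q d, De (C q) q d z := by
  have key : ∀ q₀ : Cst, ∃ C : ℝ, 1 ≤ C ∧ ∀ a : Fa n q₀, Es a.q → ∀ z ∈ Ue a.q a.d,
      De C a.q a.d z := by
    intro q₀
    by_cases hq : 0 < q₀.e₁ ∧ 0 ≤ q₀.es ∧ q₀.es ≤ 1 ∧ q₀.c' ≤ 1
    · obtain ⟨C, h1, h2⟩ := de_fam hn q₀ hq.1 hq.2.1 hq.2.2.1 hq.2.2.2
      exact ⟨C, h1, fun a _ => h2 a⟩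
    · refine ⟨1, le_rfl, fun a h1 => absurd ⟨?_, ?_, ?_, ?_⟩ hq⟩
      · rw [← a.e₁]; exact a.g.e0
      · rw [← Fa_es a]; exact h1.s0
      · rw [← Fa_es a]; linarith [h1.s1]
      · rw [← Fa_c' a]; exact h1.c1
  choose C hC0 hC using key
  exact ⟨fun q => C q.b_M₀, fun q => rfl, fun q => hC0 _, fun q hg hc d hd z hz =>
    hC q.b_M₀ ⟨q, d, rfl, hg, hd⟩ hc z hz⟩

/-- The first derivatives of the margin. -/
theorem mA_ext {C : ℝ} {μ₀ : Cst → ℝ} (hμ : 0 ≤ μ₀ q) (hg : Gc n q) (h : PkOk q d) {z : VV n}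
    (hz : z ∈ Ue q d) (b : De C q d z) :
    ‖iteratedFDeriv ℝ 1 (H747.A.mA μ₀ q d) z‖ ≤ C * H747.A.mA μ₀ q d z := by
  have hU := Ue_open hg h
  have hR : 0 < q.R := by linarith [hg.RR]
  have hr : ∀ z ∈ Ue q d, 0 < d.r2 z := fun z hz => by linarith [hz.2.2.1]
  have su : Sm (Ue q d) (d.u q) := (sm_u h hR hg.ε1 hg.nε).contDiffOn
  have sr : Sm (Ue q d) (H747.A.rr d) := sm_jr h hR hg.ε1 hg.nε hr
  have sr0 : ∀ z ∈ Ue q d, 0 < H747.A.rr d z := fun z hz => jr_pos hr hz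
  have sS : Sm (Ue q d) fun z => Sl0 q (H747.A.rr d z) :=
    (sm_Sl0 hg.e0).comp sr fun z hz => sr0 z hz
  have sG : Sm (Ue q d) (H747.A.GG q d) :=
    (h.sl.sm 1 0).comp ((su.add sS).prodMk sr) fun z hz => sr0 z hz
  have sGr : Sm (Ue q d) fun z => H747.A.GG q d z / H747.A.rr d z :=
    sG.div sr fun z hz => (sr0 z hz).ne'
  have sN : Sm (Ue q d) (d.N q) :=
    ((contDiff_infty_iff_deriv.1 h.ok.Φs).2).comp_contDiffOn su
  have df : ∀ {f : VV n → ℝ}, Sm (Ue q d) f → DifferentiableAt ℝ f z := fun hf =>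
    ((hf z hz).contDiffAt (hU.mem_nhds hz)).differentiableAt (by simp)
  have n1 : ∀ f : VV n → ℝ, ‖iteratedFDeriv ℝ 1 f z‖ = ‖fderiv ℝ f z‖ := fun f =>
    norm_iteratedFDeriv_one f
  have b1 := b.Gr 1 (by norm_num)
  have b2 := b.N 1 (by norm_num)
  have b3 := b.G 1 (by norm_num)
  rw [n1] at b1 b2 b3 ⊢
  have e : H747.A.mA μ₀ q d = fun z => μ₀ q * (H747.A.GG q d z / H747.A.rr d z) +
      q.σ / (400 * q.R) * (d.N q z + H747.A.GG q d z) := rfl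
  have c2 : 0 ≤ q.σ / (400 * q.R) := by
    have := hg.σ0
    positivity
  have hf : HasFDerivAt (H747.A.mA μ₀ q d)
      (μ₀ q • fderiv ℝ (fun z => H747.A.GG q d z / H747.A.rr d z) z +
        (q.σ / (400 * q.R)) • (fderiv ℝ (d.N q) z + fderiv ℝ (H747.A.GG q d) z)) z := by
    rw [e]
    exact ((df sGr).hasFDerivAt.const_mul _).add
      (((df sN).hasFDerivAt.add (df sG).hasFDerivAt).const_mul _)
  rw [hf.fderiv]
  refine (norm_add_le _ _).trans ?_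
  rw [norm_smul, norm_smul, Real.norm_of_nonneg hμ, Real.norm_of_nonneg c2]
  have h4 := norm_add_le (fderiv ℝ (d.N q) z) (fderiv ℝ (H747.A.GG q d) z)
  have h5 := mul_le_mul_of_nonneg_left b1 hμ
  have h6 := mul_le_mul_of_nonneg_left (h4.trans (add_le_add b2 b3)) c2
  have e2 : H747.A.mA μ₀ q d z = μ₀ q * (H747.A.GG q d z / H747.A.rr d z) +
      q.σ / (400 * q.R) * (d.N q z + H747.A.GG q d z) := rfl
  rw [e2]
  linarith

end Vale.Agent.P088.R2.H768.A
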